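import Vale.Agent.P078.Quad.Step.Exact
import Vale.Agent.P078.Quad.Loss
import Vale.Agent.P078.Quad.Defect

/-! The charges of all colours are paid by the levels of the scale. The charge is cut into
continuous layers at the dyadic levels of `u = κ / ξ`; each layer is one application of the
weighted defect, and both resulting series are geometric. -/

namespace Vale.Agent.P078.Quad

set_option linter.unusedSectionVars false

open Filter Topology ComplexOrder MeasureTheory
open Vale.Agent.P078.Tracial Vale.Agent.P078.AllMasa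

/-- The dyadic levels. -/
noncomputable def bnd (i : ℕ) : ℝ := (1 / 2 : ℝ) ^ i

/-- The part of the charge between two consecutive levels. -/
noncomputable def layer (N i : ℕ) (u : ℝ) : ℝ :=
  if i < N then min u (bnd i) ^ (7 / 20 : ℝ) - min u (bnd (i + 1)) ^ (7 / 20 : ℝ)
  else min u (bnd N) ^ (7 / 20 : ℝ)

theorem bnd_pos (i : ℕ) : 0 < bnd i := by unfold bnd; positivity

theorem bnd_le_one (i : ℕ) : bnd i ≤ 1 := pow_le_one₀ (by norm_num) (by norm_num)

theorem bnd_succ (i : ℕ) : bnd (i + 1) = bnd i / 2 := by unfold bnd; rw [pow_succ]; ring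

theorem sum_layer {N : ℕ} {u : ℝ} (hu : u ≤ 1) :
    ∑ i ∈ Finset.range (N + 1), layer N i u = u ^ (7 / 20 : ℝ) := by
  rw [Finset.sum_range_succ, Finset.sum_congr rfl (g := fun i =>
    min u (bnd i) ^ (7 / 20 : ℝ) - min u (bnd (i + 1)) ^ (7 / 20 : ℝ))
    (fun i hi => by rw [layer, if_pos (Finset.mem_range.1 hi)]),
    Finset.sum_range_sub', layer, if_neg (lt_irrefl N)]
  simp [bnd, hu]

theorem layer_bounds {N i : ℕ} (hi : i ∈ Finset.range (N + 1)) {u : ℝ} (hN : bnd N ≤ u) :
    0 ≤ layer N i u ∧ layer N i u ≤ bnd i ^ (7 / 20 : ℝ) ∧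
      layer N i u * u ^ (-(11 / 20) : ℝ) ≤ 2 * bnd i ^ (-(1 / 5) : ℝ) := by
  have hu : 0 < u := (bnd_pos N).trans_le hN
  have hi' : i ≤ N := Nat.le_of_lt_succ (Finset.mem_range.1 hi)
  have hb := bnd_pos i
  have hmin : ∀ j, 0 ≤ min u (bnd j) := fun j => le_min hu.le (bnd_pos j).le
  have h1 : 0 ≤ layer N i u ∧ layer N i u ≤ bnd i ^ (7 / 20 : ℝ) := by
    rw [layer]; split_ifs with h
    · refine ⟨sub_nonneg.2 (Real.rpow_le_rpow (hmin _) (min_le_min_left u
        (by rw [bnd_succ]; linarith)) (by norm_num)), ?_⟩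
      exact (sub_le_self _ (Real.rpow_nonneg (hmin _) _)).trans
        (Real.rpow_le_rpow (hmin _) (min_le_right _ _) (by norm_num))
    · rw [show i = N by omega]
      exact ⟨Real.rpow_nonneg (hmin _) _,
        Real.rpow_le_rpow (hmin _) (min_le_right _ _) (by norm_num)⟩
  refine ⟨h1.1, h1.2, ?_⟩
  rcases eq_or_lt_of_le h1.1 with h0 | h0
  · rw [← h0, zero_mul]; positivity
  have hlow : bnd (i + 1) ≤ u := by
    by_contra hc
    push Not at hc
    rcases lt_or_eq_of_le hi' with h | rfl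
    · rw [layer, if_pos h, min_eq_left (by rw [bnd_succ] at hc; linarith), min_eq_left hc.le,
        sub_self] at h0
      exact lt_irrefl _ h0
    · rw [bnd_succ] at hc; linarith
  rw [bnd_succ] at hlow
  have h2 : u ^ (-(11 / 20) : ℝ) ≤ 2 * bnd i ^ (-(11 / 20) : ℝ) := by
    refine (Real.rpow_le_rpow_of_nonpos (by linarith) hlow (by norm_num)).trans ?_
    rw [Real.div_rpow hb.le (by norm_num), div_eq_mul_inv, mul_comm,
      ← Real.rpow_neg (by norm_num : (0 : ℝ) ≤ 2)]
    refine mul_le_mul_of_nonneg_right ?_ (by positivity)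
    exact (Real.rpow_le_rpow_of_exponent_le (by norm_num) (by norm_num :
      (-(-(11 / 20)) : ℝ) ≤ 1)).trans_eq (Real.rpow_one 2)
  refine (mul_le_mul h1.2 h2 (by positivity) (by positivity)).trans_eq ?_
  rw [mul_left_comm, ← Real.rpow_add hb]
  norm_num

theorem continuous_layer (N i : ℕ) : Continuous (layer N i) := by
  have h : ∀ j, Continuous fun u : ℝ => min u (bnd j) ^ (7 / 20 : ℝ) := fun j =>
    (continuous_id.min continuous_const).rpow_const fun _ => Or.inr (by norm_num)
  unfold layer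
  split_ifs
  · exact (h i).sub (h (i + 1))
  · exact h N

/-- A geometric series at the dyadic levels. -/
theorem sum_bnd_rpow_le (N : ℕ) {a : ℝ} (ha : 1 / 20 ≤ a) :
    ∑ i ∈ Finset.range N, bnd i ^ a ≤ 60 := by
  set q : ℝ := (1 / 2 : ℝ) ^ a with hq
  have hq0 : 0 < q := by positivity
  have hq1 : q ≤ 1 - 1 / 60 := by
    refine le_trans (Real.rpow_le_rpow_of_exponent_ge (by norm_num) (by norm_num) ha) ?_
    have h : (1 / 2 : ℝ) ≤ (1 - 1 / 60) ^ (20 : ℕ) := by norm_num
    refine (Real.rpow_le_rpow (by norm_num) h (by norm_num : (0 : ℝ) ≤ 1 / 20)).trans_eq ?_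
    rw [← Real.rpow_natCast, ← Real.rpow_mul (by norm_num)]
    norm_num
  have e : ∀ i : ℕ, bnd i ^ a = q ^ i := fun i => by
    rw [bnd, hq, ← Real.rpow_natCast, ← Real.rpow_mul (by norm_num), mul_comm,
      Real.rpow_mul (by norm_num), Real.rpow_natCast]
  simp only [e]
  have hs := geom_sum_mul q N
  nlinarith [pow_pos hq0 N, Finset.sum_nonneg (fun i (_ : i ∈ Finset.range N) => (pow_pos hq0 i).le)]

/-- The facts on the scales at a weight below the cap. -/
theorem scale_facts {κ w : ℝ} (hκ : 0 < κ) (h0 : 0 ≤ w) (h1 : w ≤ 1 - 100000000 * κ) :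
    κ ≤ uF κ w ∧ uF κ w ≤ 1 ∧ sF κ w ≤ xi κ w := by
  have hx : xi κ w = 1 - w := max_eq_left (by linarith)
  have hx0 := xi_pos hκ w
  have hu : κ ≤ uF κ w := by
    rw [uF, le_div_iff₀ hx0]
    exact mul_le_of_le_one_right hκ.le (by linarith)
  refine ⟨hu, (div_le_one hx0).2 (by linarith), ?_⟩
  have hc : 0 ≤ cF κ w := mul_nonneg (by linarith) (sub_nonneg.2
    (Real.rpow_le_rpow hκ.le hu (by norm_num)))
  unfold sF
  rw [hx]
  nlinarith

/-- The square of the scale of the noise. -/
theorem muF_sq {κ : ℝ} (hκ : 0 < κ) (w : ℝ) :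
    muF κ w ^ 2 = xi κ w ^ 2 * uF κ w ^ (-(11 / 20) : ℝ) := by
  rw [muF, mul_pow, ← Real.rpow_natCast (uF κ w ^ (-(11 / 40) : ℝ)),
    ← Real.rpow_mul (uF_pos hκ w).le]
  norm_num

variable {M X : Type} [CStarAlgebra M] [PartialOrder M] [StarOrderedRing M]
variable [TopologicalSpace X] [CompactSpace X] [T2Space X] [TotallyDisconnectedSpace X]
variable {P : Prm M} {C : SCore M X} {r : ℕ} {s : Config M X r} {δ : ℝ}

/-- One layer of the charge of one colour. -/
noncomputable def Ctx.layerC (ctx : Ctx P C s δ) (N i : ℕ) (c : Fin r) : C(X, ℝ) :=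
  ctx.reg c * ⟨fun x => layer N i (uF P.κ ((s.col c).W x)),
    (continuous_layer N i).comp ((continuous_uF P.κ_pos).comp (map_continuous (s.col c).W))⟩

theorem Ctx.reg_01 (ctx : Ctx P C s δ) (c : Fin r) (x : X) :
    ctx.reg c x = 0 ∨ ctx.reg c x = 1 := by
  rcases ctx.good_01 c x with h | h <;> rcases ctx.bad_01 c x with h' | h' <;>
    simp [Ctx.reg, h, h']

theorem Ctx.sum_charge_le (hP : P.Ok C) (hs : StateOk P C s) (hg : P.Good C s)
    (ctx : Ctx P C s δ) (F : Fin r → Fam X) (B : ℝ) (hd : (ctx.data F B).OkW)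
    (hFN : ∀ c, (F c).FromNrm C)
    (hFK : ∀ c (f : C(X, ℝ)), 0 ≤ f →
      (F c).K f ≤ ∑ i, C.K (C.off ((s.col c).G i : M)) f)
    (m : ℕ) {L : ℝ} (hL : 1 ≤ L) :
    ∑ c, C.form (C.r (P.price C s * ctx.reg c * P.chargeC (s.col c))) 1
        (C.mulS (ctx.good c)) ((ctx.data F B).HW C hFN c m)
      ≤ (10 : ℝ) ^ 10 * (L * C.ig (P.pc C s * s.U)
          + (1 / L) * ∑ c, C.ig (P.price C s * ctx.good c * P.gainC (s.col c))) := by
  classical
  let _ : MeasurableSpace X := borel X
  have : BorelSpace X := ⟨rfl⟩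
  have hκ := P.κ_pos
  obtain ⟨N, hN⟩ := exists_pow_lt_of_lt_one hκ (show (1 / 2 : ℝ) < 1 by norm_num)
  have hbN : bnd N ≤ P.κ := hN.le
  set d := ctx.data F B with hdef
  obtain ⟨ν, hν1, hν2, hint, hnp⟩ := exists_measure C (q := P.pc C s) (P.pc_pos C s)
  have hscale : ∀ c x, P.κ ≤ uF P.κ ((s.col c).W x) ∧ uF P.κ ((s.col c).W x) ≤ 1 ∧
      sF P.κ ((s.col c).W x) ≤ xi P.κ ((s.col c).W x) := fun c x =>
    scale_facts hκ ((hs.col c).W_mem x).1 ((hs.col c).W_mem x).2
  have hpmax : 0 < P.pmax r := by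
    have := P.pmin_pos
    have := P.S_ge
    unfold Prm.pmax
    positivity
  have hnull : ∀ c k, ((d.F c).p k).NullPres ν := fun c k =>
    (hFN c k).elim fun v hv => hnp v _ hv
  have hsuper : ∀ c (f : C(X, ℝ)), 0 ≤ f →
      (∫ x, d.act c x * d.n c x * (d.F c).K (d.act c * f) x ∂ν)
          + P.l / (2 * P.pmax r) * ∫ x, d.act c x * f x ∂ν
        ≤ ∫ x, d.e c x * d.n c x * (d.act c x * f x) ∂ν := by
    intro c f hf
    have hf' : ∀ x, 0 ≤ f x := fun x => ContinuousMap.le_def.1 hf x
    have hg0 : ∀ x, 0 ≤ ctx.good c x := fun x => by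
      rcases ctx.good_01 c x with h | h <;> simp [h]
    have hgf : (0 : C(X, ℝ)) ≤ ctx.good c * f :=
      ContinuousMap.le_def.2 fun x => mul_nonneg (hg0 x) (hf' x)
    have hsup := ctx.super c (ctx.good c * f) hgf (by
      ext x
      rcases ctx.good_01 c x with h | h <;> simp [h])
    have e1 : ∫ x, d.act c x * d.n c x * (d.F c).K (d.act c * f) x ∂ν
        = C.ig (P.pc C s * (ctx.good c * P.nn (s.col c) * (F c).K (ctx.good c * f))) := by
      rw [← hint]; rfl
    have e2 : ∫ x, d.act c x * f x ∂ν = C.ig (P.pc C s * (ctx.good c * f)) := by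
      rw [← hint]; rfl
    have e3 : ∫ x, d.e c x * d.n c x * (d.act c x * f x) ∂ν
        = C.ig (P.price C s * P.eC C (s.col c) * (ctx.good c * f)) := by
      show ∫ x, (d.e c * d.n c * (d.act c * f)) x ∂ν = _
      rw [hint]
      congr 1
      ext x
      rcases ctx.good_01 c x with h | h
      · simp [hdef, Ctx.data, h]
      · obtain ⟨-, -, -, hp, hn, -, -⟩ := ctx.good_facts hP hs hg h
        have h1 : P.inn (s.col c) x * P.nn (s.col c) x = 1 :=
          inv_mul_cancel₀ (P.nn_pos (s.col c) x).ne'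
        simp only [hdef, Ctx.data, Prm.eC, ContinuousMap.mul_apply, ContinuousMap.sub_apply,
          ContinuousMap.coe_sum, Finset.sum_apply, h, one_mul, hp]
        rw [← hn]
        linear_combination (P.price C s x * f x * P.Dc C (s.col c) x) * h1
    rw [e1, e2, e3, ← C.ig_smul]
    refine le_trans (add_le_add ?_ ?_) hsup
    · rw [← C.ig_sum]
      refine C.ig_mono (ContinuousMap.le_def.2 fun x => ?_)
      have hK := ContinuousMap.le_def.1 (hFK c _ hgf) x
      have hK0 : ∀ i, 0 ≤ C.K (C.off ((s.col c).G i : M)) (ctx.good c * f) x := fun i =>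
        ContinuousMap.le_def.1 (C.Er_nonneg (star_right_conjugate_nonneg (C.r_nonneg hgf) _)) x
      have hNf : P.Nfn C s c x
          = P.price C s x * (s.col c).act x * P.nc (s.col c) x + P.lG := by
        simp [Prm.Nfn]
      simp only [ContinuousMap.mul_apply, ContinuousMap.coe_sum, Finset.sum_apply] at hK ⊢
      rcases ctx.good_01 c x with h | h
      · rw [h, zero_mul, zero_mul, mul_zero]
        refine Finset.sum_nonneg fun i _ => mul_nonneg ?_ (hK0 i)
        rw [hNf]
        have := P.lG_pos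
        have := (price_bounds (P := P) (C := C) hs x).1
        have h2 : 0 ≤ P.nc (s.col c) x :=
          mul_nonneg (by norm_num : (0 : ℝ) ≤ 1 / 2) (sF_nonneg hκ P.κ_le ((hs.col c).W_mem x).1
            ((hs.col c).W_mem x).2)
        have ha : 0 ≤ (s.col c).act x := by
          rcases (hs.col c).act_01 x with ha | ha <;> simp [ha]
        positivity
      · obtain ⟨ha, -, hpr, hp, hn, -, -⟩ := ctx.good_facts hP hs hg h
        rw [h, one_mul, hp, ← mul_assoc, ← Finset.mul_sum, hNf, ha, mul_one, hn]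
        refine (mul_le_mul_of_nonneg_left hK ?_).trans (mul_le_mul_of_nonneg_right ?_ ?_)
        · rw [← hn]
          exact mul_nonneg (P.pmin_pos.le.trans hpr) (P.nn_pos _ x).le
        · linarith [P.lG_pos]
        · exact Finset.sum_nonneg fun i _ => hK0 i
    · refine le_trans (C.ig_mono (g := (P.l / 2) • (ctx.good c * f))
        (ContinuousMap.le_def.2 fun x => ?_)) (C.ig_smul _ _).le
      simp only [ContinuousMap.smul_apply, ContinuousMap.mul_apply, smul_eq_mul]
      rw [← mul_assoc]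
      refine mul_le_mul_of_nonneg_right ?_ (mul_nonneg (hg0 x) (hf' x))
      refine (mul_le_mul_of_nonneg_left (price_bounds hs x).2.2
        (div_nonneg P.l_pos.le (by positivity))).trans (le_of_eq ?_)
      field_simp
  have hpiece : ∀ i ∈ Finset.range (N + 1), ∀ η, 0 < η → ∀ᶠ π : DiscreteQuotient X in atBot,
      ∑ c, ∑ j : π, C.ig (P.pc C s * (ctx.layerC N i c * (cellFn π j
          * (ctx.good c * cellFn π j - d.PW (2 * m) (unitVec π c j) c))))
        ≤ 2 * L * C.ig (P.pc C s * s.U) * bnd i ^ (1 / 10 : ℝ)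
          + 547600 / L * (∑ c, C.ig (P.price C s * ctx.good c * P.gainC (s.col c)))
            * bnd i ^ (1 / 20 : ℝ) + η := by
    intro i hi η hη
    have hb := bnd_pos i
    have hbd : ∀ c x, 0 ≤ layer N i (uF P.κ ((s.col c).W x)) ∧ _ ∧ _ := fun c x =>
      layer_bounds hi (hbN.trans (hscale c x).1)
    have hev := eventually_charge_le hd hnull (div_pos P.l_pos (by positivity)) hsuper
      (ctx.layerC N i) (fmax := bnd i ^ (7 / 20 : ℝ)) (c2 := 1095200 * bnd i ^ (-(1 / 5) : ℝ))
      (fun c x => mul_nonneg (by rcases ctx.reg_01 c x with h | h <;> simp [h]) (hbd c x).1)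
      (fun c x => by
        rcases ctx.reg_01 c x with h | h
        · simp [Ctx.layerC, h]; positivity
        · simpa [Ctx.layerC, h] using (hbd c x).2.1)
      (fun c x _ => by
        rcases ctx.reg_01 c x with h | h
        · simp only [Ctx.layerC, ContinuousMap.mul_apply, h, zero_mul]; positivity
        · obtain ⟨hgood, -, -, hxn, -, -⟩ := ctx.reg_facts hP hs hg h
          have hn := (ctx.good_facts hP hs hg hgood).2.2.2.2.1
          show (ctx.reg c x * layer N i (uF P.κ ((s.col c).W x)))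
              * muF P.κ ((s.col c).W x) ^ 2 ≤ _ * P.nn (s.col c) x ^ 2
          rw [h, one_mul, muF_sq hκ, hn]
          have hsq : xi P.κ ((s.col c).W x) ^ 2 ≤ 547600 * P.nc (s.col c) x ^ 2 := by
            nlinarith [xi_pos hκ ((s.col c).W x)]
          calc _ = layer N i (uF P.κ ((s.col c).W x))
                * uF P.κ ((s.col c).W x) ^ (-(11 / 20) : ℝ) * xi P.κ ((s.col c).W x) ^ 2 := by
                ring
            _ ≤ 2 * bnd i ^ (-(1 / 5) : ℝ) * (547600 * P.nc (s.col c) x ^ 2) :=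
                mul_le_mul (hbd c x).2.2 hsq (sq_nonneg _) (by positivity)
            _ = _ := by ring)
      (by positivity) (by positivity) (R := L * bnd i ^ (-(1 / 4) : ℝ))
      (one_le_mul_of_one_le_of_one_le hL
        (Real.one_le_rpow_of_pos_of_le_one_of_nonpos hb (bnd_le_one i) (by norm_num)))
      m hη
    refine hev.mono fun π hπ => ?_
    have eU : ∫ x, d.U x ∂ν = C.ig (P.pc C s * s.U) := hint _
    have eG : ∀ c, ∫ x, d.act c x * (d.n c x ^ 2 / d.μ c x ^ 2) ∂ν
        ≤ C.ig (P.price C s * ctx.good c * P.gainC (s.col c)) / 4 := fun c => by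
      let q : C(X, ℝ) := ⟨fun x => d.n c x ^ 2 / d.μ c x ^ 2,
        ((map_continuous _).pow 2).div ((map_continuous _).pow 2) fun x =>
          (pow_pos (hd.μ_pos c x) 2).ne'⟩
      show ∫ x, (d.act c * q) x ∂ν ≤ _
      rw [hint, div_eq_inv_mul, ← C.ig_smul]
      refine C.ig_mono (ContinuousMap.le_def.2 fun x => ?_)
      show P.pc C s x * (ctx.good c x * (P.nn (s.col c) x ^ 2 / muF P.κ ((s.col c).W x) ^ 2))
        ≤ (4 : ℝ)⁻¹ * (P.price C s x * ctx.good c x * gainF P.κ ((s.col c).W x))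
      rcases ctx.good_01 c x with h | h
      · simp [h]
      obtain ⟨-, -, hpr, hp, hn, -, -⟩ := ctx.good_facts hP hs hg h
      rw [h, one_mul, mul_one, hp, mul_left_comm]
      refine mul_le_mul_of_nonneg_left ?_ (P.pmin_pos.le.trans hpr)
      have hu := uF_pos hκ ((s.col c).W x)
      have hx := xi_pos hκ ((s.col c).W x)
      have hn2 : P.nn (s.col c) x ≤ xi P.κ ((s.col c).W x) / 2 := by
        rw [hn, Prm.nc, ContinuousMap.smul_apply, smul_eq_mul]
        show 1 / 2 * sF P.κ ((s.col c).W x) ≤ _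
        linarith [(hscale c x).2.2]
      rw [muF_sq hκ, gainF, div_le_iff₀ (by positivity)]
      calc P.nn (s.col c) x ^ 2 ≤ (xi P.κ ((s.col c).W x) / 2) ^ 2 :=
            pow_le_pow_left₀ (P.nn_pos _ x).le hn2 2
        _ = 4⁻¹ * xi P.κ ((s.col c).W x) ^ 2 * (uF P.κ ((s.col c).W x) ^ (11 / 20 : ℝ)
              * uF P.κ ((s.col c).W x) ^ (-(11 / 20) : ℝ)) := by
            rw [← Real.rpow_add hu]; norm_num; ring
        _ = _ := by ring
    have eT : ∀ c (j : π), ∫ x, ctx.layerC N i c x * (cellFn π j x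
        * (d.act c x * cellFn π j x - d.PW (2 * m) (unitVec π c j) c x)) ∂ν
        = C.ig (P.pc C s * (ctx.layerC N i c * (cellFn π j
          * (ctx.good c * cellFn π j - d.PW (2 * m) (unitVec π c j) c)))) := fun c j => by
      rw [← hint]; rfl
    simp only [eT, eU] at hπ
    have hsum := Finset.sum_le_sum (fun c (_ : c ∈ Finset.univ) => eG c)
    rw [← Finset.sum_div] at hsum
    refine hπ.trans (add_le_add_left ?_ η |>.trans_eq' rfl)
    have e1 : bnd i ^ (7 / 20 : ℝ) * (L * bnd i ^ (-(1 / 4) : ℝ)) = L * bnd i ^ (1 / 10 : ℝ) := by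
      rw [mul_left_comm, ← Real.rpow_add hb]; norm_num
    have e2 : 1095200 * bnd i ^ (-(1 / 5) : ℝ) / (L * bnd i ^ (-(1 / 4) : ℝ))
        = 1095200 / L * bnd i ^ (1 / 20 : ℝ) := by
      rw [show (-(1 / 5) : ℝ) = 1 / 20 + -(1 / 4) by norm_num, Real.rpow_add hb]
      field_simp
    rw [e1, e2]
    have h3 := mul_le_mul_of_nonneg_left hsum
      (show 0 ≤ 1095200 / L * bnd i ^ (1 / 20 : ℝ) by positivity)
    have hG0 : 0 ≤ ∑ c, C.ig (P.price C s * ctx.good c * P.gainC (s.col c)) := by
      refine Finset.sum_nonneg fun c _ => C.ig_nonneg (ContinuousMap.le_def.2 fun x => ?_)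
      refine mul_nonneg (mul_nonneg (price_bounds hs x).1 ?_) (Real.rpow_nonneg (uF_pos hκ _).le _)
      rcases ctx.good_01 c x with h | h <;> simp [h]
    have h4 := mul_nonneg (show 0 ≤ 547600 / L * bnd i ^ (1 / 20 : ℝ) by positivity) hG0
    linear_combination 2 * h3
  have hlim := tendsto_finsetSum Finset.univ fun c _ => tendsto_charge C hFN hd c m
    (P.price C s * ctx.reg c * P.chargeC (s.col c))
  refine le_of_forall_pos_le_add fun ε hε => le_of_tendsto hlim ?_
  have hη : 0 < ε / (N + 1 : ℕ) := by positivity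
  filter_upwards [(Finset.range (N + 1)).eventually_all.2 fun i hi => hpiece i hi _ hη] with π hπ
  have esplit : ∀ c, P.price C s * ctx.reg c * P.chargeC (s.col c)
      = ∑ i ∈ Finset.range (N + 1), P.pc C s * ctx.layerC N i c := fun c => by
    ext x
    simp only [ContinuousMap.mul_apply, ContinuousMap.coe_sum, Finset.sum_apply, Ctx.layerC,
      ContinuousMap.coe_mk, ← Finset.mul_sum, sum_layer (hscale c x).2.1]
    rcases ctx.reg_01 c x with h | h
    · simp [h]
    · rw [(ctx.good_facts hP hs hg (ctx.reg_facts hP hs hg h).1).2.2.2.1, mul_assoc]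
      rfl
  have etot : ∑ c, ∑ j : π, C.ig (P.price C s * ctx.reg c * P.chargeC (s.col c) * (cellFn π j
        * (d.act c * cellFn π j - d.PW (2 * m) (unitVec π c j) c)))
      = ∑ i ∈ Finset.range (N + 1), ∑ c, ∑ j : π, C.ig (P.pc C s * (ctx.layerC N i c * (cellFn π j
        * (ctx.good c * cellFn π j - d.PW (2 * m) (unitVec π c j) c)))) := by
    rw [Finset.sum_comm (s := Finset.range (N + 1))]
    refine Finset.sum_congr rfl fun c _ => ?_
    rw [Finset.sum_comm]
    refine Finset.sum_congr rfl fun j _ => ?_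
    rw [esplit, Finset.sum_mul, C.ig_sum]
    simp only [mul_assoc]
    rfl
  refine (le_of_eq etot).trans ((Finset.sum_le_sum hπ).trans ?_)
  simp only [Finset.sum_add_distrib, ← Finset.mul_sum, Finset.sum_const, Finset.card_range,
    nsmul_eq_mul]
  rw [mul_div_cancel₀ ε (by positivity)]
  have hU0 : 0 ≤ C.ig (P.pc C s * s.U) := C.ig_nonneg (ContinuousMap.le_def.2 fun x =>
    mul_nonneg (P.pc_pos C s x).le (by rcases hs.U_01 x with h | h <;> simp [h]))
  have hG0 : 0 ≤ ∑ c, C.ig (P.price C s * ctx.good c * P.gainC (s.col c)) := by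
    refine Finset.sum_nonneg fun c _ => C.ig_nonneg (ContinuousMap.le_def.2 fun x => ?_)
    refine mul_nonneg (mul_nonneg (price_bounds hs x).1 ?_) (Real.rpow_nonneg (uF_pos hκ _).le _)
    rcases ctx.good_01 c x with h | h <;> simp [h]
  have hL0 : 0 < L := by linarith
  have k1 := mul_le_mul_of_nonneg_left (sum_bnd_rpow_le (N + 1) (a := 1 / 10) (by norm_num))
    (show 0 ≤ 2 * L * C.ig (P.pc C s * s.U) by positivity)
  have k2 := mul_le_mul_of_nonneg_left (sum_bnd_rpow_le (N + 1) (a := 1 / 20) le_rfl)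
    (show 0 ≤ 547600 / L * ∑ c, C.ig (P.price C s * ctx.good c * P.gainC (s.col c)) by positivity)
  have k3 : (0 : ℝ) ≤ 1 / L * ∑ c, C.ig (P.price C s * ctx.good c * P.gainC (s.col c)) := by
    positivity
  have e : 547600 / L * (∑ c, C.ig (P.price C s * ctx.good c * P.gainC (s.col c)))
      = 547600 * (1 / L * ∑ c, C.ig (P.price C s * ctx.good c * P.gainC (s.col c))) := by ring
  rw [e] at k2 ⊢
  nlinarith [mul_nonneg hL0.le hU0]

end Vale.Agent.P078.Quad
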