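import Vale.Agent.P078.Quad.Step.Exact
import Vale.Agent.P078.Quad.Cov
import Vale.Agent.P078.AllMasa.Step.Residual

/-! The change of the budget along the smoothed noise is small in mean square. -/

namespace Vale.Agent.P078.Quad

set_option linter.unusedSectionVars false

open Filter Topology ComplexOrder
open Vale.Agent.P078.Tracial Vale.Agent.P078.AllMasa

variable {M X : Type} [CStarAlgebra M] [PartialOrder M] [StarOrderedRing M]
variable [TopologicalSpace X] [CompactSpace X] [T2Space X] [TotallyDisconnectedSpace X]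
variable {P : Prm M} {C : SCore M X} {r : ℕ} {s : Config M X r} {δ : ℝ}

/-- The square of a difference against three families of terms. -/
theorem sq_sub_sum3_le (L : ℝ) (a b c : Fin r → ℝ) :
    (L - ∑ i, (a i + b i + c i)) * (L - ∑ i, (a i + b i + c i))
      ≤ 2 * (L * L) + 6 * r * ∑ i, (a i * a i + b i * b i + c i * c i) := by
  set S := ∑ i, (a i + b i + c i) with hS
  have h1 : (L - S) * (L - S) ≤ 2 * (L * L) + 2 * (S * S) := by
    linarith [mul_self_nonneg (L + S)]
  have h2 : S * S ≤ r * ∑ i, (a i + b i + c i) * (a i + b i + c i) := by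
    have h := sq_sum_le_card_mul_sum_sq (s := (Finset.univ : Finset (Fin r)))
      (f := fun i => a i + b i + c i)
    simpa [sq] using h
  have h3 : ∑ i, (a i + b i + c i) * (a i + b i + c i)
      ≤ 3 * ∑ i, (a i * a i + b i * b i + c i * c i) := by
    rw [Finset.mul_sum]
    refine Finset.sum_le_sum fun i _ => ?_
    linarith [mul_self_nonneg (a i - b i), mul_self_nonneg (a i - c i), mul_self_nonneg (b i - c i)]
  have h4 := mul_le_mul_of_nonneg_left h3 (Nat.cast_nonneg (α := ℝ) r)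
  linarith

/-- The union of two families. -/
noncomputable def famAdd (F' F : Fam X) : Fam X :=
  ⟨F'.num + F.num, Fin.append F'.g F.g, Fin.append F'.p F.p⟩

theorem famAdd_K (F' F : Fam X) (f : C(X, ℝ)) : (famAdd F' F).K f = F'.K f + F.K f := by
  show ∑ k : Fin (F'.num + F.num),
    Fin.append F'.g F.g k * (Fin.append F'.p F.p k).T f = F'.K f + F.K f
  simp only [Fam.K, Fin.sum_univ_add, Fin.append_left, Fin.append_right]

theorem famAdd_fromNrm {F' F : Fam X} (h' : F'.FromNrm C) (h : F.FromNrm C) :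
    (famAdd F' F).FromNrm C :=
  Fin.addCases (fun i => by simpa [famAdd] using h' i) (fun i => by simpa [famAdd] using h i)

/-- The kernels of the two signs off the subalgebra. -/
noncomputable def KK (C : SCore M X) (s : Col M X) : C(X, ℝ) →ₗ[ℝ] C(X, ℝ) :=
  ∑ i, StepAux.Klin C (C.off (s.G i : M))

theorem KK_apply (C : SCore M X) (s : Col M X) (f : C(X, ℝ)) :
    KK C s f = ∑ i, C.K (C.off (s.G i : M)) f := by
  simp [KK, StepAux.Klin_apply]

theorem KK_nonneg (C : SCore M X) (s : Col M X) (f : C(X, ℝ)) (hf : 0 ≤ f) : 0 ≤ KK C s f := by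
  rw [KK_apply]
  exact Finset.sum_nonneg fun i _ => StepAux.K_nonneg _ hf

theorem exists_family_two (C : SCore M X) (s : Col M X) (hG : ∀ i, IsSelfAdjoint (s.G i : M))
    {a : ℝ} (ha : 0 < a) :
    ∃ F : Fam X, F.FromNrm C ∧ (∀ f, 0 ≤ f → 0 ≤ F.K f ∧ F.K f ≤ KK C s f) ∧
      ∀ᶠ π : DiscreteQuotient X in atBot,
        ∑ j : π, C.ig ((KK C s (cellFn π j) - F.K (cellFn π j))
          * (KK C s (cellFn π j) - F.K (cellFn π j))) ≤ a := by
  choose F hFs hFN hFK hFt using fun i => exists_family C (C.off_isSelfAdjoint (hG i))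
    (C.Er_off _) (show 0 < a / 4 by linarith)
  refine ⟨famAdd (F true) (F false), famAdd_fromNrm (hFN true) (hFN false), fun f hf => ⟨?_, ?_⟩, ?_⟩
  · rw [famAdd_K]
    exact add_nonneg ((F true).K_nonneg (hFs true).g_nonneg hf)
      ((F false).K_nonneg (hFs false).g_nonneg hf)
  · rw [famAdd_K, KK_apply, Fintype.sum_bool]
    exact add_le_add (hFK true f hf) (hFK false f hf)
  filter_upwards [hFt true, hFt false] with π h1 h2
  have h : ∀ j : π, C.ig ((KK C s (cellFn π j) - (famAdd (F true) (F false)).K (cellFn π j))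
      * (KK C s (cellFn π j) - (famAdd (F true) (F false)).K (cellFn π j)))
      ≤ 2 * C.ig ((C.K (C.off (s.G true : M)) (cellFn π j) - (F true).K (cellFn π j))
          * (C.K (C.off (s.G true : M)) (cellFn π j) - (F true).K (cellFn π j)))
        + 2 * C.ig ((C.K (C.off (s.G false : M)) (cellFn π j) - (F false).K (cellFn π j))
          * (C.K (C.off (s.G false : M)) (cellFn π j) - (F false).K (cellFn π j))) := fun j => by
    rw [← C.ig_smul, ← C.ig_smul, ← C.ig_add]
    refine C.ig_mono (ContinuousMap.le_def.2 fun x => ?_)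
    simp only [famAdd_K, KK_apply, Fintype.sum_bool, ContinuousMap.mul_apply,
      ContinuousMap.add_apply, ContinuousMap.sub_apply, ContinuousMap.smul_apply, smul_eq_mul]
    linarith [mul_self_nonneg ((C.K (C.off (s.G true : M)) (cellFn π j) x - (F true).K (cellFn π j) x)
      - (C.K (C.off (s.G false : M)) (cellFn π j) x - (F false).K (cellFn π j) x))]
  refine (Finset.sum_le_sum fun j _ => h j).trans ?_
  rw [Finset.sum_add_distrib, ← Finset.mul_sum, ← Finset.mul_sum]
  linarith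

/-- A family applied to the weighted smoothed noise: the mean square is bounded on cells. -/
theorem eventually_rowW_le (C : SCore M X) {d : WData X r} (hd : d.OkW)
    (hF : ∀ c, (d.F c).FromNrm C) (m : ℕ) (c : Fin r) {F' : Fam X} (hF' : F'.FromNrm C)
    {f : C(X, ℝ)} (hf : 0 ≤ f) {A : ℝ}
    (hA : ∀ᶠ π : DiscreteQuotient X in atBot, ∑ j : π,
      C.ig (f * (F'.K (d.μ c * (d.act c * cellFn π j))
        * F'.K (d.μ c * (d.act c * cellFn π j)))) ≤ A)
    {ε : ℝ} (hε : 0 < ε) :
    ∀ᶠ π : DiscreteQuotient X in atBot,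
      ∑ c', ∑ j : π, C.ig (f * (F'.K (d.μ c * d.PW m (unitVec π c' j) c)
          * F'.K (d.μ c * d.PW m (unitVec π c' j) c))) ≤ A + ε := by
  have hG : (0 : M) ≤ C.r f := C.r_nonneg hf
  set W := F'.toOps C hF' * C.mulS (d.μ c) with hW
  have h := WData.tendsto_two_rows C hF hd W W c m (C.r_isSelfAdjoint f) 1
  have e1 : C.mulS (d.act c) = d.RW C hF c (2 * m) + d.HW C hF c m :=
    Subtype.ext (LinearMap.ext fun f => by simp [WData.HW])
  have hle : C.form (C.r f) 1 (W * C.mulS (d.act c)) (W * d.RW C hF c (2 * m))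
      ≤ C.form (C.r f) 1 (W * C.mulS (d.act c)) (W * C.mulS (d.act c)) := by
    conv_rhs => arg 2; rw [e1]
    rw [mul_add, map_add]
    exact le_add_of_nonneg_right (((C.isSemi_form hG 1).nonneg _).trans
      (WData.form_HW_le C hF hd W c m hG 1))
  have hA' : C.form (C.r f) 1 (W * C.mulS (d.act c)) (W * C.mulS (d.act c)) ≤ A := by
    refine le_of_tendsto (C.tendsto_form (C.r f) 1 _ _) (hA.mono fun π hπ => le_trans ?_ hπ)
    rw [C.cov_r_one]
    simp [hW, Fam.coe_toOps]
  refine (h.eventually_le_const (lt_add_of_le_of_pos (hle.trans hA') hε)).mono fun π hπ =>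
    le_trans ?_ hπ
  refine le_of_eq (Finset.sum_congr rfl fun c' _ => Finset.sum_congr rfl fun j _ => ?_)
  simp only [one_mul, star_one, mul_one, ← C.r_mul, SCore.ig, hW, MulMemClass.coe_mul,
    Module.End.mul_apply, SCore.coe_mulS, mulC_apply, Fam.coe_toOps, Fam.Kl_apply]
  congr 2
  ring

theorem Ctx.eventually_resid_le (hP : P.Ok C) (hs : StateOk P C s) (hg : P.Good C s)
    (ctx : Ctx P C s δ) (F : Fin r → Fam X) {B : ℝ} (hB : 1 ≤ B) (hd : (ctx.data F B).OkW)
    (hFN : ∀ c, (F c).FromNrm C)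
    (hFK : ∀ c (f : C(X, ℝ)), 0 ≤ f →
      (F c).K f ≤ ∑ i, C.K (C.off ((s.col c).G i : M)) f)
    {a : ℝ} (ha : 0 < a)
    (hFt : ∀ c, ∀ᶠ π : DiscreteQuotient X in atBot,
      ∑ j : π, C.ig (((∑ i, C.K (C.off ((s.col c).G i : M)) (cellFn π j)) - (F c).K (cellFn π j))
        * ((∑ i, C.K (C.off ((s.col c).G i : M)) (cellFn π j)) - (F c).K (cellFn π j))) ≤ a)
    {m : ℕ} (hm : 0 < m) {ε : ℝ} (hε : 0 < ε) :
    ∀ᶠ π : DiscreteQuotient X in atBot,
      ∑ c', ∑ j : π, C.ig (s.U
          * (P.resid C s (fun c => P.μc (s.col c) * (ctx.data F B).PW m (unitVec π c' j) c)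
            * P.resid C s (fun c => P.μc (s.col c) * (ctx.data F B).PW m (unitVec π c' j) c)))
        ≤ 2 * ((ctx.data F B).TW / m)
          + 64 * (r : ℝ) ^ 2 * (1 + P.Λ) ^ 8 * B ^ 4 * (a + δ) + ε := by
  classical
  set d := ctx.data F B with hddef
  have hr : (0 : ℝ) ≤ r := Nat.cast_nonneg r
  have hB0 : (0 : ℝ) < B := by linarith
  set D : ℝ := 2 + 18 * r * r with hD
  set ε2 := ε / D with hε2
  have hD0 : 0 < D := by positivity
  have hε2p : 0 < ε2 := div_pos hε hD0
  have hGs : ∀ c i, IsSelfAdjoint ((s.col c).G i : M) := fun c i =>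
    IsSelfAdjoint.of_nonneg ((hs.col c).G_nonneg i)
  choose Cst hCst0 hCst using fun c => WData.exists_crude_le C hd m c
  have hB2 : ∀ c, 0 < B ^ 2 * Cst c + 1 := fun c => by
    have := hCst0 c; positivity
  choose F' hF'N hF'K hF't using fun c => exists_family_two C (s.col c) (hGs c)
    (lt_min ha (div_pos hε2p (hB2 c)))
  set Q : Fin r → (C(X, ℝ) →ₗ[ℝ] C(X, ℝ)) := fun c => KK C (s.col c) - StepAux.Flin (F c) with hQ
  set Q' : Fin r → (C(X, ℝ) →ₗ[ℝ] C(X, ℝ)) := fun c => KK C (s.col c) - StepAux.Flin (F' c)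
    with hQ'
  have hQ0 : ∀ c f, 0 ≤ f → 0 ≤ Q c f := fun c f hf => by
    simp only [hQ, LinearMap.sub_apply, StepAux.Flin_apply, sub_nonneg, KK_apply]
    exact hFK c f hf
  have hQ'0 : ∀ c f, 0 ≤ f → 0 ≤ Q' c f := fun c f hf => by
    simp only [hQ', LinearMap.sub_apply, StepAux.Flin_apply, sub_nonneg]
    exact (hF'K c f hf).2
  have hact : ∀ c x, 0 ≤ d.act c x ∧ d.act c x ≤ 1 := fun c x => by
    rcases hd.base.act_01 c x with h | h <;> rw [h] <;> norm_num
  have hcell : ∀ c (π : DiscreteQuotient X) (j : π),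
      d.μ c * (d.act c * cellFn π j) ≤ B • cellFn π j ∧
      0 ≤ d.μ c * (d.act c * cellFn π j) := fun c π j => by
    have h : ∀ x, 0 ≤ cellFn π j x := fun x => ContinuousMap.le_def.1 (cellFn_nonneg π j) x
    refine ⟨ContinuousMap.le_def.2 fun x => ?_, ContinuousMap.le_def.2 fun x => ?_⟩
    · simp only [ContinuousMap.mul_apply, ContinuousMap.smul_apply, smul_eq_mul]
      exact mul_le_mul (hd.μ_le c x) (mul_le_of_le_one_left (h x) (hact c x).2)
        (mul_nonneg (hact c x).1 (h x)) hB0.le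
    · simp only [ContinuousMap.mul_apply, ContinuousMap.zero_apply]
      exact mul_nonneg (hd.μ_pos c x).le (mul_nonneg (hact c x).1 (h x))
  -- a positive map on a weighted cell
  have hmap : ∀ (T : C(X, ℝ) →ₗ[ℝ] C(X, ℝ)), (∀ f, 0 ≤ f → 0 ≤ T f) → ∀ c
      (π : DiscreteQuotient X) (j : π) x, 0 ≤ T (d.μ c * (d.act c * cellFn π j)) x ∧
        T (d.μ c * (d.act c * cellFn π j)) x ≤ B * T (cellFn π j) x := fun T hT c π j x => by
    obtain ⟨hc1, hc0⟩ := hcell c π j
    refine ⟨ContinuousMap.le_def.1 (hT _ hc0) x, ?_⟩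
    have := ContinuousMap.le_def.1 (StepAux.apply_mono T hT hc1) x
    simpa using this
  -- (1) the crude tail
  have e2 : ∀ c, ∀ᶠ π : DiscreteQuotient X in atBot, ∑ c', ∑ j : π,
      C.ig (Q' c (d.μ c * d.PW m (unitVec π c' j) c)
        * Q' c (d.μ c * d.PW m (unitVec π c' j) c)) ≤ ε2 := fun c => by
    obtain ⟨π0, hπ0⟩ := (hF't c).exists
    have hpos : ∀ f, 0 ≤ f → 0 ≤ (Q' c).comp (LinearMap.mulLeft ℝ (d.μ c)) f := fun f hf =>
      hQ'0 c _ (ContinuousMap.le_def.2 fun x => by
        simpa using mul_nonneg (hd.μ_pos c x).le (ContinuousMap.le_def.1 hf x))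
    refine (hCst c _ hpos π0).mono fun π h => h.trans ?_
    have h1 : ∑ i : π0, C.ig (Q' c (cellFn π0 i) * Q' c (cellFn π0 i))
        ≤ ε2 / (B ^ 2 * Cst c + 1) :=
      (le_of_eq (by rfl)).trans (hπ0.trans (min_le_right _ _))
    have h2 : ∑ i : π0, C.ig ((Q' c).comp (LinearMap.mulLeft ℝ (d.μ c)) (cellFn π0 i)
          * (Q' c).comp (LinearMap.mulLeft ℝ (d.μ c)) (cellFn π0 i))
        ≤ B ^ 2 * ∑ i : π0, C.ig (Q' c (cellFn π0 i) * Q' c (cellFn π0 i)) := by
      rw [Finset.mul_sum]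
      refine Finset.sum_le_sum fun i _ => ?_
      rw [← C.ig_smul]
      refine C.ig_mono (ContinuousMap.le_def.2 fun x => ?_)
      have hle : d.μ c * cellFn π0 i ≤ B • cellFn π0 i := ContinuousMap.le_def.2 fun y => by
        have h2 : d.μ c y * cellFn π0 i y ≤ B * cellFn π0 i y := mul_le_mul_of_nonneg_right
          (hd.μ_le c y) (ContinuousMap.le_def.1 (cellFn_nonneg π0 i) y)
        simpa using h2
      have h0 := ContinuousMap.le_def.1 (hpos _ (cellFn_nonneg π0 i)) x
      have h1 := ContinuousMap.le_def.1 (StepAux.apply_mono (Q' c) (hQ'0 c) hle) x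
      simp only [LinearMap.comp_apply, LinearMap.mulLeft_apply, ContinuousMap.zero_apply,
        map_smul, ContinuousMap.mul_apply, ContinuousMap.smul_apply, smul_eq_mul] at h0 h1 ⊢
      exact (mul_self_le_mul_self h0 h1).trans (le_of_eq (by ring))
    refine (mul_le_mul_of_nonneg_left
      (h2.trans (mul_le_mul_of_nonneg_left h1 (sq_nonneg B))) (hCst0 c)).trans ?_
    rw [← mul_assoc, mul_div, div_le_iff₀ (hB2 c)]
    linarith
  -- (2) the difference of the families
  have e3 : ∀ c, ∀ᶠ π : DiscreteQuotient X in atBot, ∑ c', ∑ j : π,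
      C.ig (d.act c * ((StepAux.famDiff (F' c) (F c)).K (d.μ c * d.PW m (unitVec π c' j) c)
        * (StepAux.famDiff (F' c) (F c)).K (d.μ c * d.PW m (unitVec π c' j) c)))
      ≤ 4 * (B ^ 2 * a) + ε2 := fun c => by
    refine eventually_rowW_le C hd hFN m c (StepAux.famDiff_fromNrm (hF'N c) (hFN c))
      (ContinuousMap.le_def.2 fun x => (hact c x).1) ?_ hε2p
    filter_upwards [hFt c, hF't c] with π h1 h2
    have h3 : ∀ j : π, C.ig (d.act c
          * ((StepAux.famDiff (F' c) (F c)).K (d.μ c * (d.act c * cellFn π j))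
            * (StepAux.famDiff (F' c) (F c)).K (d.μ c * (d.act c * cellFn π j))))
        ≤ 2 * B ^ 2 * C.ig (Q c (cellFn π j) * Q c (cellFn π j))
          + 2 * B ^ 2 * C.ig (Q' c (cellFn π j) * Q' c (cellFn π j)) := fun j => by
      rw [← C.ig_smul, ← C.ig_smul, ← C.ig_add]
      refine C.ig_mono (ContinuousMap.le_def.2 fun x => ?_)
      obtain ⟨u3, u1⟩ := hmap (Q c) (hQ0 c) c π j x
      obtain ⟨u4, u2⟩ := hmap (Q' c) (hQ'0 c) c π j x
      have e : (StepAux.famDiff (F' c) (F c)).K (d.μ c * (d.act c * cellFn π j)) x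
          = Q c (d.μ c * (d.act c * cellFn π j)) x
            - Q' c (d.μ c * (d.act c * cellFn π j)) x := by
        simp only [StepAux.famDiff_K, hQ, hQ', LinearMap.sub_apply, StepAux.Flin_apply,
          ContinuousMap.sub_apply]
        ring
      simp only [ContinuousMap.mul_apply, ContinuousMap.add_apply, ContinuousMap.smul_apply,
        smul_eq_mul, e]
      refine (mul_le_of_le_one_left (mul_self_nonneg _) (hact c x).2).trans ?_
      have v1 := mul_self_le_mul_self u3 u1
      have v2 := mul_self_le_mul_self u4 u2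
      linarith [mul_self_nonneg (Q c (d.μ c * (d.act c * cellFn π j)) x
        + Q' c (d.μ c * (d.act c * cellFn π j)) x)]
    refine (Finset.sum_le_sum fun j _ => h3 j).trans ?_
    rw [Finset.sum_add_distrib, ← Finset.mul_sum, ← Finset.mul_sum]
    have h1' : ∑ j : π, C.ig (Q c (cellFn π j) * Q c (cellFn π j)) ≤ a := by
      simpa [hQ, KK_apply, StepAux.Flin_apply] using h1
    have h2' : ∑ j : π, C.ig (Q' c (cellFn π j) * Q' c (cellFn π j)) ≤ a :=
      le_trans (le_of_eq rfl) (h2.trans (min_le_left _ _))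
    have := mul_le_mul_of_nonneg_left h1' (by positivity : (0:ℝ) ≤ 2 * B ^ 2)
    have := mul_le_mul_of_nonneg_left h2' (by positivity : (0:ℝ) ≤ 2 * B ^ 2)
    linarith
  -- (3) the part off the exact points
  have e4 : ∀ c, ∀ᶠ π : DiscreteQuotient X in atBot, ∑ c', ∑ j : π,
      C.ig (((s.col c).act - d.act c) * ((F' c).K (d.μ c * d.PW m (unitVec π c' j) c)
        * (F' c).K (d.μ c * d.PW m (unitVec π c' j) c)))
      ≤ 64 * P.Λ ^ 4 * B ^ 2 * δ + ε2 := fun c => by
    have hf : 0 ≤ (s.col c).act - d.act c :=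
      sub_nonneg.2 (ContinuousMap.le_def.2 (ctx.good_le c))
    refine eventually_rowW_le C hd hFN m c (hF'N c) hf (Eventually.of_forall fun π => ?_) hε2p
    refine le_trans ?_ (mul_le_mul_of_nonneg_left (ctx.good_small c) (by positivity))
    rw [← C.ig_smul, ← C.ig_sum]
    refine C.ig_mono (ContinuousMap.le_def.2 fun x => ?_)
    simp only [ContinuousMap.coe_sum, Finset.sum_apply, ContinuousMap.mul_apply,
      ContinuousMap.smul_apply, smul_eq_mul]
    rw [← Finset.mul_sum, mul_comm]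
    refine mul_le_mul_of_nonneg_right ?_ (ContinuousMap.le_def.1 hf x)
    have h0 : ∀ j : π, 0 ≤ (F' c).K (d.μ c * (d.act c * cellFn π j)) x ∧
        (F' c).K (d.μ c * (d.act c * cellFn π j)) x ≤ B * KK C (s.col c) (cellFn π j) x :=
      fun j => by
        obtain ⟨hk0, hk1⟩ := hF'K c _ (hcell c π j).2
        exact ⟨ContinuousMap.le_def.1 hk0 x, (ContinuousMap.le_def.1 hk1 x).trans
          (hmap _ (KK_nonneg C _) c π j x).2⟩
    refine (Finset.sum_le_sum fun j _ => mul_self_le_mul_self (h0 j).1 (h0 j).2).trans ?_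
    have hsum := StepAux.sum_sq_cell_le _ (KK_nonneg C (s.col c)) π x
    have h2 : |KK C (s.col c) 1 x| ≤ 8 * P.Λ ^ 2 := by
      have hk : ∀ i, |C.K (C.off ((s.col c).G i : M)) 1 x| ≤ 4 * P.Λ ^ 2 := fun i => by
        have hone : ‖(1 : C(X, ℝ))‖ ≤ 1 := Tracial.norm_le_of_abs zero_le_one fun x => by simp
        refine (StepAux.abs_K_le (StepAux.norm_off_le P.Λ_pos.le ((hs.col c).G_nonneg i)
          (hg.G_le c i)) 1 x).trans ((mul_le_of_le_one_right (sq_nonneg _) hone).trans (le_of_eq ?_))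
        ring
      rw [KK_apply, Fintype.sum_bool, ContinuousMap.add_apply]
      exact (abs_add_le _ _).trans (by linarith [hk true, hk false])
    have hsq : KK C (s.col c) 1 x * KK C (s.col c) 1 x ≤ 64 * P.Λ ^ 4 := by
      have := mul_self_le_mul_self (abs_nonneg _) h2
      rw [abs_mul_abs_self] at this
      linarith
    calc ∑ j : π, B * KK C (s.col c) (cellFn π j) x * (B * KK C (s.col c) (cellFn π j) x)
        = B ^ 2 * ∑ j : π, KK C (s.col c) (cellFn π j) x * KK C (s.col c) (cellFn π j) x := by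
          rw [Finset.mul_sum]
          exact Finset.sum_congr rfl fun j _ => by ring
      _ ≤ B ^ 2 * (64 * P.Λ ^ 4) := mul_le_mul_of_nonneg_left (hsum.trans hsq) (sq_nonneg B)
      _ = 64 * P.Λ ^ 4 * B ^ 2 := by ring
  filter_upwards [WData.eventually_residual_le C hFN hd hm hε2p, eventually_all.2 e2,
    eventually_all.2 e3, eventually_all.2 e4] with π h0 h2 h3 h4
  set k : Fin r → π → Fin r → C(X, ℝ) :=
    fun c' j c => P.μc (s.col c) * d.PW m (unitVec π c' j) c with hk
  have hn01 : ∀ c x, 0 ≤ P.nc (s.col c) x ∧ P.nc (s.col c) x ≤ 1 / 2 := fun c x => by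
    obtain ⟨hw0, hw1⟩ := (hs.col c).W_mem x
    obtain ⟨-, -, hs2⟩ := sF_bounds P.κ_pos P.κ_le hw0 hw1
    have hs0 := sF_nonneg P.κ_pos P.κ_le hw0 hw1
    have := mul_le_one₀ (show (s.col c).W x ≤ 1 by unfold Prm.Wa at hw1; linarith [P.κ_pos])
      (xi_pos P.κ_pos _).le (xi_le_one P.κ_le hw0)
    simp only [Prm.nc, Prm.sc, ContinuousMap.smul_apply, ContinuousMap.coe_mk, smul_eq_mul]
    constructor <;> linarith
  have hpt : ∀ c' (j : π), C.ig (s.U * (P.resid C s (k c' j) * P.resid C s (k c' j)))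
      ≤ 2 * C.ig (d.LW (d.PW m (unitVec π c' j)) * d.LW (d.PW m (unitVec π c' j)))
        + 6 / 4 * r * ∑ c,
        (C.ig (Q' c (k c' j c) * Q' c (k c' j c))
          + C.ig (d.act c * ((StepAux.famDiff (F' c) (F c)).K (k c' j c)
              * (StepAux.famDiff (F' c) (F c)).K (k c' j c)))
          + C.ig (((s.col c).act - d.act c) * ((F' c).K (k c' j c) * (F' c).K (k c' j c)))) :=
    fun c' j => by
    simp only [← C.ig_add, ← C.ig_sum, ← C.ig_smul]
    refine C.ig_mono (ContinuousMap.le_def.2 fun x => ?_)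
    set u := d.PW m (unitVec π c' j) with hu
    set t1 : Fin r → ℝ := fun c => (s.col c).act x * (P.nc (s.col c) x * Q' c (k c' j c) x) with t1d
    set t2 : Fin r → ℝ := fun c => d.act c x
      * (P.nc (s.col c) x * (StepAux.famDiff (F' c) (F c)).K (k c' j c) x) with t2d
    set t3 : Fin r → ℝ := fun c => ((s.col c).act x - d.act c x)
      * (P.nc (s.col c) x * (F' c).K (k c' j c) x) with t3d
    have hid : ∀ c, P.dirT C (s.col c) (k c' j c) x
        = d.Lw c (u c) x - (t1 c + t2 c + t3 c) := fun c => by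
      have hs1 : u c * d.act c = u c := WData.PW_supp hd m _ c
      have hk1 : d.act c * (d.μ c * u c) = d.μ c * u c := by
        rw [mul_comm, mul_assoc, hs1]
      have hx1 : d.act c x * k c' j c x = k c' j c x := congrArg (fun f : C(X, ℝ) => f x) hk1
      have hL : d.Lw c (u c) x = d.n c x
          * (d.act c x * (d.e c x * k c' j c x - (F c).K (k c' j c) x)) := by
        rw [WData.Lw_apply, LData.Lc_apply, hk1]
        rfl
      rw [hL]
      simp only [Prm.dirT, t1d, t2d, t3d, hQ', LinearMap.sub_apply, StepAux.Flin_apply,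
        StepAux.famDiff_K, KK_apply, ContinuousMap.sub_apply, ContinuousMap.mul_apply,
        StepAux.K_split (hGs c _), Fintype.sum_bool,
        ContinuousMap.add_apply, hddef, Ctx.data, Prm.inn, ContinuousMap.coe_mk, Prm.γ]
      rcases ctx.good_01 c x with h | h
      · have : k c' j c x = 0 := by
          rw [← hx1]; simp [hddef, Ctx.data, h]
        rw [h, this]
        ring
      · obtain ⟨ha1, -, -, -, hnn, -⟩ := ctx.good_facts hP hs hg h
        have hne : P.nc (s.col c) x * (P.nc (s.col c) x)⁻¹ = 1 :=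
          mul_inv_cancel₀ (hnn ▸ (P.nn_pos (s.col c) x).ne')
        rw [h, hnn, ha1]
        linear_combination (-(P.Dc C (s.col c) x * k c' j c x)) * hne
    have hres : P.resid C s (k c' j) x = d.LW u x - ∑ c, (t1 c + t2 c + t3 c) := by
      simp only [Prm.resid, ContinuousMap.coe_sum, Finset.sum_apply, hid, Finset.sum_sub_distrib,
        WData.LW_apply]
    simp only [ContinuousMap.mul_apply, ContinuousMap.add_apply, ContinuousMap.smul_apply,
      ContinuousMap.coe_sum, Finset.sum_apply, ContinuousMap.sub_apply, smul_eq_mul, hres]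
    have hU : s.U x ≤ 1 := by rcases hs.U_01 x with h | h <;> rw [h] <;> norm_num
    refine (mul_le_of_le_one_left (mul_self_nonneg _) hU).trans
      ((sq_sub_sum3_le _ _ _ _).trans ?_)
    refine add_le_add le_rfl ?_
    rw [show (6 : ℝ) / 4 * r = 6 * r * (1 / 4) by ring, mul_assoc (6 * (r : ℝ)), Finset.mul_sum,
      Finset.mul_sum, Finset.mul_sum]
    refine Finset.sum_le_sum fun c _ => mul_le_mul_of_nonneg_left ?_ (by positivity)
    obtain ⟨n0, n1⟩ := hn01 c x
    have hsqn : P.nc (s.col c) x * P.nc (s.col c) x ≤ 1 / 4 :=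
      (mul_self_le_mul_self n0 n1).trans_eq (by norm_num)
    have sq : ∀ w y, 0 ≤ w → w ≤ 1 → w * (P.nc (s.col c) x * y) * (w * (P.nc (s.col c) x * y))
        ≤ 1 / 4 * (w * (y * y)) := fun w y w0 w1 => by
      calc w * (P.nc (s.col c) x * y) * (w * (P.nc (s.col c) x * y))
          = (w * w) * (y * y) * (P.nc (s.col c) x * P.nc (s.col c) x) := by ring
        _ ≤ w * (y * y) * (1 / 4) := mul_le_mul
            (mul_le_mul_of_nonneg_right (mul_le_of_le_one_left w0 w1) (mul_self_nonneg y)) hsqn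
            (mul_self_nonneg _) (mul_nonneg w0 (mul_self_nonneg y))
        _ = _ := by ring
    have a01 : 0 ≤ (s.col c).act x ∧ (s.col c).act x ≤ 1 := by
      rcases (hs.col c).act_01 x with h | h <;> rw [h] <;> norm_num
    have q1 := sq _ (Q' c (k c' j c) x) a01.1 a01.2
    have q1' := mul_le_of_le_one_left (mul_self_nonneg (Q' c (k c' j c) x)) a01.2
    have q2 := sq _ ((StepAux.famDiff (F' c) (F c)).K (k c' j c) x) (hact c x).1 (hact c x).2
    have hgl := ctx.good_le c x
    have q3 := sq ((s.col c).act x - d.act c x) ((F' c).K (k c' j c) x)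
      (sub_nonneg.2 hgl) (by linarith [(hact c x).1])
    simp only [t1d, t2d, t3d]
    linarith
  refine (Finset.sum_le_sum fun c' _ => Finset.sum_le_sum fun j _ => hpt c' j).trans ?_
  simp only [Finset.sum_add_distrib, ← Finset.mul_sum]
  have hsw : ∀ (f : Fin r → (c' : Fin r) → π → ℝ) (B : ℝ),
      (∀ c, ∑ c', ∑ j, f c c' j ≤ B) → ∑ c', ∑ j, ∑ c, f c c' j ≤ r * B := fun f B h => by
    have e : ∑ c', ∑ j, ∑ c, f c c' j = ∑ c, ∑ c', ∑ j, f c c' j := by
      rw [Finset.sum_congr rfl fun c' _ => Finset.sum_comm, Finset.sum_comm]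
    rw [e]
    refine (Finset.sum_le_sum fun c _ => h c).trans (le_of_eq ?_)
    simp
  have g2 := hsw (fun c c' j => C.ig (Q' c (k c' j c) * Q' c (k c' j c))) _ h2
  have g3 := hsw (fun c c' j => C.ig (d.act c * ((StepAux.famDiff (F' c) (F c)).K (k c' j c)
    * (StepAux.famDiff (F' c) (F c)).K (k c' j c)))) _ h3
  have g4 := hsw (fun c c' j => C.ig (((s.col c).act - d.act c)
    * ((F' c).K (k c' j c) * (F' c).K (k c' j c)))) _ h4
  have h6 := mul_le_mul_of_nonneg_left (add_le_add (add_le_add g2 g3) g4)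
    (by positivity : (0 : ℝ) ≤ 6 / 4 * r)
  have hU1 : C.ig d.U ≤ 1 := C.ig_le_of_le fun x => by
    show s.U x ≤ 1
    rcases hs.U_01 x with h | h <;> rw [h] <;> norm_num
  have hT : d.TW / m * C.ig d.U ≤ d.TW / m :=
    mul_le_of_le_one_right (div_nonneg (by unfold WData.TW; positivity) (Nat.cast_nonneg m)) hU1
  have hεD : ε2 * D = ε := by rw [hε2]; field_simp
  rw [hD] at hεD
  have hΛ := P.Λ_pos
  have hδ : ∀ c, 0 ≤ δ := fun c => le_trans (C.ig_nonneg
    (sub_nonneg.2 (ContinuousMap.le_def.2 (ctx.good_le c)))) (ctx.good_small c)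
  have hmain : (6 / 4 : ℝ) * r * (r * (4 * (B ^ 2 * a)) + r * (64 * P.Λ ^ 4 * B ^ 2 * δ))
      ≤ 64 * (r : ℝ) ^ 2 * (1 + P.Λ) ^ 8 * B ^ 4 * (a + δ) := by
    rcases Nat.eq_zero_or_pos r with rfl | hr'
    · simp
    have hd0 := hδ ⟨0, hr'⟩
    have k1 : 16 * P.Λ ^ 4 ≤ (1 + P.Λ) ^ 8 := by
      calc 16 * P.Λ ^ 4 ≤ (4 * P.Λ) ^ 4 := by rw [mul_pow]; gcongr; norm_num
        _ ≤ ((1 + P.Λ) ^ 2) ^ 4 := by
          gcongr
          linarith [sq_nonneg (1 - P.Λ)]
        _ = _ := by ring
    have k2 : (1 : ℝ) ≤ (1 + P.Λ) ^ 8 := one_le_pow₀ (by linarith)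
    have k3 : B ^ 2 ≤ B ^ 4 := pow_le_pow_right₀ hB (by norm_num)
    have m1 : 6 * (B ^ 2 * a) ≤ 64 * ((1 + P.Λ) ^ 8 * B ^ 4 * a) := by
      have := mul_le_mul_of_nonneg_right (mul_le_mul k2 k3 (sq_nonneg B) (by positivity)) ha.le
      linarith [mul_nonneg (sq_nonneg B) ha.le]
    have m2 : 96 * P.Λ ^ 4 * B ^ 2 * δ ≤ 64 * ((1 + P.Λ) ^ 8 * B ^ 4 * δ) := by
      have := mul_le_mul_of_nonneg_right (mul_le_mul k1 k3 (sq_nonneg B) (by positivity)) hd0
      nlinarith [mul_nonneg (mul_nonneg (pow_nonneg hΛ.le 4) (sq_nonneg B)) hd0]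
    nlinarith [mul_le_mul_of_nonneg_left (add_le_add m1 m2) (mul_self_nonneg (r : ℝ))]
  have hrr : 0 ≤ ε2 * ((r : ℝ) * r) := by positivity
  linarith

end Vale.Agent.P078.Quad
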