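import Vale.Agent.P078.Quad.Step.Resid
import Vale.Agent.P078.AllMasa.Family
import Vale.Agent.P078.AllMasa.Step.Alg

/-! One family for the kernels of both signs. -/

namespace Vale.Agent.P078.Quad

set_option linter.unusedSectionVars false

open Filter Topology ComplexOrder
open Vale.Agent.P078.Tracial Vale.Agent.P078.AllMasa

variable {M X : Type} [CStarAlgebra M] [PartialOrder M] [StarOrderedRing M]
variable [TopologicalSpace X] [CompactSpace X] [T2Space X] [TotallyDisconnectedSpace X]

/-- The involution of a union. -/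
def invAdd {m n : ℕ} (i : Fin m → Fin m) (i' : Fin n → Fin n) : Fin (m + n) → Fin (m + n) :=
  Fin.addCases (fun k => Fin.castAdd n (i k)) (fun k => Fin.natAdd m (i' k))

theorem invAdd_left {m n : ℕ} (i : Fin m → Fin m) (i' : Fin n → Fin n) (k : Fin m) :
    invAdd i i' (Fin.castAdd n k) = Fin.castAdd n (i k) :=
  Fin.addCases_left k

theorem invAdd_right {m n : ℕ} (i : Fin m → Fin m) (i' : Fin n → Fin n) (k : Fin n) :
    invAdd i i' (Fin.natAdd m k) = Fin.natAdd m (i' k) :=
  Fin.addCases_right k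

theorem famAdd_symm {F F' : Fam X} (h : F.Symm) (h' : F'.Symm) : (famAdd F F').Symm := by
  obtain ⟨i, hi, hp, hg⟩ := h.exists_inv
  obtain ⟨i', hi', hp', hg'⟩ := h'.exists_inv
  have e1 : ∀ k, invAdd i i' (invAdd i i' k) = k :=
    Fin.addCases (fun k => by rw [invAdd_left, invAdd_left, hi k])
      (fun k => by rw [invAdd_right, invAdd_right, hi' k])
  have e2 : ∀ k, Fin.append F.p F'.p (invAdd i i' k) = (Fin.append F.p F'.p k).symm :=
    Fin.addCases (fun k => by rw [invAdd_left, Fin.append_left, Fin.append_left, hp k])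
      (fun k => by rw [invAdd_right, Fin.append_right, Fin.append_right, hp' k])
  have e3 : ∀ k, Fin.append F.g F'.g (invAdd i i' k)
      = (Fin.append F.p F'.p k).symm.T (Fin.append F.g F'.g k) :=
    Fin.addCases
      (fun k => by rw [invAdd_left, Fin.append_left, Fin.append_left, Fin.append_left, hg k])
      (fun k => by rw [invAdd_right, Fin.append_right, Fin.append_right, Fin.append_right, hg' k])
  exact ⟨Fin.addCases (fun k => by simpa [famAdd] using h.g_nonneg k)
      (fun k => by simpa [famAdd] using h'.g_nonneg k),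
    Fin.addCases (fun k => by simpa [famAdd] using h.g_supp k)
      (fun k => by simpa [famAdd] using h'.g_supp k),
    ⟨invAdd i i', e1, e2, e3⟩⟩

/-- The kernels of both signs are exhausted by one symmetric family. -/
theorem exists_family_pair (C : SCore M X) (G : Bool → Mˣ) (hG : ∀ i, 0 ≤ (G i : M)) {a : ℝ}
    (ha : 0 < a) {Λ : ℝ} (hΛ : 0 ≤ Λ) (hGle : ∀ i, (G i : M) ≤ algebraMap ℝ M Λ) :
    ∃ F : Fam X, F.Symm ∧ F.FromNrm C ∧
      (∀ f, 0 ≤ f → F.K f ≤ ∑ i, C.K (C.off (G i : M)) f) ∧
      (∀ x, F.K 1 x ≤ 8 * Λ ^ 2) ∧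
      ∀ᶠ π : DiscreteQuotient X in atBot,
        ∑ j : π, C.ig (((∑ i, C.K (C.off (G i : M)) (cellFn π j)) - F.K (cellFn π j))
          * ((∑ i, C.K (C.off (G i : M)) (cellFn π j)) - F.K (cellFn π j))) ≤ a := by
  have hsa := fun i => IsSelfAdjoint.of_nonneg (hG i)
  choose F hFs hFN hFK hFt using fun i => exists_family C (C.off_isSelfAdjoint (hsa i))
    (C.Er_off (G i : M)) (show 0 < a / 4 by positivity)
  refine ⟨famAdd (F true) (F false), famAdd_symm (hFs _) (hFs _),
    famAdd_fromNrm (hFN _) (hFN _), fun f hf => ?_, fun x => ?_, ?_⟩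
  · rw [famAdd_K, Fintype.sum_bool]
    exact add_le_add (hFK _ f hf) (hFK _ f hf)
  · have hone : ‖(1 : C(X, ℝ))‖ ≤ 1 := Tracial.norm_le_of_abs zero_le_one fun x => by simp
    have h : ∀ i, (F i).K 1 x ≤ 4 * Λ ^ 2 := fun i => by
      refine (ContinuousMap.le_def.1 (hFK i 1 (ContinuousMap.le_def.2 fun _ => by simp)) x).trans ?_
      refine (le_abs_self _).trans ((StepAux.abs_K_le (StepAux.norm_off_le hΛ (hG i) (hGle i)) 1 x).trans ?_)
      calc (2 * Λ) ^ 2 * ‖(1 : C(X, ℝ))‖ ≤ (2 * Λ) ^ 2 * 1 :=
            mul_le_mul_of_nonneg_left hone (sq_nonneg _)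
        _ = 4 * Λ ^ 2 := by ring
    rw [famAdd_K, ContinuousMap.add_apply]
    linarith [h true, h false]
  · filter_upwards [hFt true, hFt false] with π h1 h2
    refine le_trans (Finset.sum_le_sum (g := fun j =>
      2 * C.ig ((C.K (C.off (G true : M)) (cellFn π j) - (F true).K (cellFn π j))
        * (C.K (C.off (G true : M)) (cellFn π j) - (F true).K (cellFn π j)))
      + 2 * C.ig ((C.K (C.off (G false : M)) (cellFn π j) - (F false).K (cellFn π j))
        * (C.K (C.off (G false : M)) (cellFn π j) - (F false).K (cellFn π j)))) fun j _ => ?_) ?_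
    · rw [← C.ig_smul, ← C.ig_smul, ← C.ig_add]
      refine C.ig_mono (ContinuousMap.le_def.2 fun x => ?_)
      simp only [famAdd_K, Fintype.sum_bool, ContinuousMap.mul_apply, ContinuousMap.sub_apply,
        ContinuousMap.add_apply, ContinuousMap.smul_apply, smul_eq_mul]
      nlinarith [sq_nonneg ((C.K (C.off (G true : M)) (cellFn π j) x
          - (F true).K (cellFn π j) x)
        - (C.K (C.off (G false : M)) (cellFn π j) x - (F false).K (cellFn π j) x))]
    · rw [Finset.sum_add_distrib, ← Finset.mul_sum, ← Finset.mul_sum]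
      linarith

end Vale.Agent.P078.Quad
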