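import Vale.Agent.P078.Quad.MoveDefs
import Vale.Agent.P078.AllMasa.Step.Alg

/-! The exact second order term of one colour, and the quadratic form as a form. -/

namespace Vale.Agent.P078.Quad

set_option linter.unusedSectionVars false

open Filter Topology ComplexOrder
open Vale.Agent.P078.Tracial Vale.Agent.P078.AllMasa

variable {M X : Type} [CStarAlgebra M] [PartialOrder M] [StarOrderedRing M]
variable [TopologicalSpace X] [CompactSpace X] [T2Space X] [TotallyDisconnectedSpace X]
variable {P : Prm M} {C : SCore M X} {r : ℕ}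

/-- A cube of an element around its diagonal. -/
theorem tr_cube {G : M} (hG : IsSelfAdjoint G) (N k sN : C(X, ℝ)) (hsN : sN * sN = N) :
    C.tr (C.r N * (G * C.r k * G * C.r k * G))
      = C.ig (N * (C.Er G * C.Er G * C.Er G * (k * k)))
        + 2 * C.ig (N * C.Er G * k * C.K (C.off G) k)
        + C.tr (C.r sN * C.off G * (C.r k * G * C.r k) * star (C.r sN * C.off G)) := by
  set z := C.off G with hzdef
  set γ := C.Er G with hγ
  have hz : IsSelfAdjoint z := C.off_isSelfAdjoint hG
  have hG' : G = C.r γ + z := by rw [hzdef, SCore.off, add_sub_cancel]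
  have hX : IsSelfAdjoint (C.r k * G * C.r k) := hG.conjugate_self (C.r_isSelfAdjoint k)
  have hEX : C.Er (C.r k * G * C.r k) = k * γ * k := by rw [C.Er_mul_r, C.Er_r_mul]
  have hzz : IsSelfAdjoint (z * C.r k * z) := (C.r_isSelfAdjoint k).conjugate_self hz
  have hK : C.Er (z * C.r k * z) = C.K z k := by rw [SCore.K, hz.star_eq]
  have t0 : ∀ f, C.tr (C.r f * z) = 0 := fun f => by
    rw [C.tr_r_mul f hz, hzdef, C.Er_off, mul_zero, C.ig_zero]
  have hXd : C.r k * G * C.r k = C.r (k * γ * k) + C.r k * z * C.r k := by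
    rw [hG', mul_add, add_mul, C.r_mul, C.r_mul]
  set X := C.r k * G * C.r k with hXdef
  have t1 : C.tr (C.r N * (C.r γ * X * C.r γ)) = C.ig (N * (γ * γ * γ * (k * k))) := by
    rw [show C.r N * (C.r γ * X * C.r γ) = C.r N * (C.r γ * X) * C.r γ by simp only [mul_assoc],
      ← C.tr_r_comm, show C.r γ * (C.r N * (C.r γ * X)) = C.r (γ * N * γ) * X by
        simp only [C.r_mul, mul_assoc],
      C.tr_r_mul _ hX, hEX]
    congr 1; ring
  have t2 : C.tr (C.r N * (C.r γ * X * z)) = C.ig (N * γ * k * C.K z k) := by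
    rw [show C.r N * (C.r γ * X * z) = C.r (N * γ * (k * γ * k)) * z
          + C.r (N * γ * k) * (z * C.r k * z) by
        rw [hXd]; simp only [C.r_mul, mul_add, add_mul, mul_assoc],
      C.tr_add, t0, zero_add, C.tr_r_mul _ hzz, hK]
  have t3 : C.tr (C.r N * (z * X * C.r γ)) = C.ig (N * γ * k * C.K z k) := by
    have e1 : C.r γ * (C.r N * (z * X)) = C.r (γ * N) * z * C.r (k * γ * k)
          + C.r (γ * N) * (z * C.r k * z) * C.r k := by
      rw [hXd]; simp only [C.r_mul, mul_add, mul_assoc]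
    rw [show C.r N * (z * X * C.r γ) = C.r N * (z * X) * C.r γ by simp only [mul_assoc],
      ← C.tr_r_comm, e1, C.tr_add, ← C.tr_r_comm, ← C.tr_r_comm,
      ← mul_assoc, ← mul_assoc, ← C.r_mul, ← C.r_mul, t0, zero_add, C.tr_r_mul _ hzz, hK]
    congr 1; ring
  have t4 : C.tr (C.r N * (z * X * z))
      = C.tr (C.r sN * z * X * star (C.r sN * z)) := by
    rw [star_mul, hz.star_eq, C.star_r, ← hsN, C.r_mul, mul_assoc (C.r sN) (C.r sN),
      C.tr_r_comm]
    simp only [mul_assoc]
  have e : G * C.r k * G * C.r k * G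
      = C.r γ * X * C.r γ + C.r γ * X * z + z * X * C.r γ + z * X * z := by
    have e0 : G * C.r k * G * C.r k * G = G * X * G := by simp only [hXdef, mul_assoc]
    rw [e0]
    clear_value X
    rw [hG']
    simp only [add_mul, mul_add]
    abel
  rw [e, mul_add, mul_add, mul_add, C.tr_add, C.tr_add, C.tr_add, t1, t2, t3, t4]
  ring

/-- The second order term of one colour: diagonal, cross and loss. -/
theorem quadC_eq {s : Config M X r} (hs : StateOk P C s) (c : Fin r) (k sN : C(X, ℝ))
    (hsN : sN * sN = P.Nfn C s c) :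
    P.quadC C s c k
      = C.ig ((P.price C s * (s.col c).act * ((1 / 2 : ℝ) • (P.Γc C (s.col c) * P.s2c (s.col c))
            + (1 / 2 : ℝ) • (P.s1c (s.col c) * ∑ i, P.γ C (s.col c) i * P.γ C (s.col c) i))
          + P.Nfn C s c * ∑ i, P.γ C (s.col c) i * P.γ C (s.col c) i * P.γ C (s.col c) i)
          * (k * k))
        + (∑ i, C.ig ((P.price C s * (s.col c).act * ((1 / 2 : ℝ) • P.s1c (s.col c))
            + (2 : ℝ) • (P.Nfn C s c * P.γ C (s.col c) i))
            * (k * C.K (C.off ((s.col c).G i : M)) k)))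
        + ∑ i, C.tr (C.r sN * C.off ((s.col c).G i : M)
            * (C.r k * ((s.col c).G i : M) * C.r k)
            * star (C.r sN * C.off ((s.col c).G i : M))) := by
  have hG : ∀ i, IsSelfAdjoint ((s.col c).G i : M) := fun i =>
    IsSelfAdjoint.of_nonneg ((hs.col c).G_nonneg i)
  unfold Prm.quadC
  rw [Finset.sum_congr rfl fun i _ => tr_cube (hG i) (P.Nfn C s c) k sN hsN,
    Finset.sum_congr rfl fun i _ => StepAux.K_split (hG i) k,
    Finset.sum_add_distrib, Finset.sum_add_distrib]
  simp only [Prm.γ, ← C.ig_sum, ← C.ig_smul, ← C.ig_add]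
  rw [← add_assoc, ← C.ig_add]
  congr 2
  ext x
  simp only [Fintype.sum_bool, ContinuousMap.add_apply, ContinuousMap.mul_apply,
    ContinuousMap.smul_apply, smul_eq_mul]
  ring

theorem quad_parallelogram (s : Config M X r) (v w : Fin r → C(X, ℝ)) :
    P.quad C s (v + w) + P.quad C s (v - w) = 2 * P.quad C s v + 2 * P.quad C s w := by
  have hK : ∀ (z : M) (f g : C(X, ℝ)), C.K z (f - g) = C.K z f - C.K z g := fun z f g =>
    map_sub (StepAux.Klin C z) f g
  have hd : ∀ c, P.quadC C s c ((v + w) c) + P.quadC C s c ((v - w) c)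
      = 2 * P.quadC C s c (v c) + 2 * P.quadC C s c (w c) := fun c => by
    simp only [Prm.quadC, Pi.add_apply, Pi.sub_apply, Fintype.sum_bool, StepAux.K_add, hK,
      C.r_add, C.r_sub, mul_add, add_mul, mul_sub, sub_mul, smul_add, smul_sub, C.ig_add,
      C.ig_sub, C.tr_add, C.tr_sub]
    ring
  have hr1 : P.resid C s (v + w) = P.resid C s v + P.resid C s w := by
    simp only [Prm.resid, Prm.dirT, Pi.add_apply, StepAux.K_add, Finset.sum_add_distrib, mul_add,
      mul_sub, Finset.sum_sub_distrib]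
    abel
  have hr2 : P.resid C s (v - w) = P.resid C s v - P.resid C s w := by
    simp only [Prm.resid, Prm.dirT, Pi.sub_apply, hK, Finset.sum_sub_distrib, mul_sub]
    abel
  have hs : (∑ c, P.quadC C s c ((v + w) c)) + ∑ c, P.quadC C s c ((v - w) c)
      = 2 * (∑ c, P.quadC C s c (v c)) + 2 * ∑ c, P.quadC C s c (w c) := by
    rw [← Finset.sum_add_distrib, Finset.sum_congr rfl fun c _ => hd c, Finset.sum_add_distrib,
      ← Finset.mul_sum, ← Finset.mul_sum]
  simp only [Prm.quad, hr1, hr2, mul_add, mul_sub, add_mul, sub_mul, C.ig_add, C.ig_sub]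
  linarith

end Vale.Agent.P078.Quad
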