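import Vale.Agent.P078.Quad.Step.Exact
import Vale.Agent.P078.Quad.Step.Expand
import Vale.Agent.P078.Quad.Loss
import Vale.Agent.P078.Quad.Cross

/-! The second order term of one colour along the smoothed noise: the gain of the correction, a
charge on the complement of the projection and an error on the bad points. -/

namespace Vale.Agent.P078.Quad

set_option linter.unusedSectionVars false

open Filter Topology ComplexOrder
open Vale.Agent.P078.Tracial Vale.Agent.P078.AllMasa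

variable {M X : Type} [CStarAlgebra M] [PartialOrder M] [StarOrderedRing M]
variable [TopologicalSpace X] [CompactSpace X] [T2Space X] [TotallyDisconnectedSpace X]

namespace ColourAux

/-! ### scalar facts -/

theorem rpow_split {u : ℝ} (hu : 0 < u) {p q r : ℝ} (h : p + q = r) : u ^ p * u ^ q = u ^ r := by
  rw [← Real.rpow_add hu, h]

theorem one_le_rpow_neg {u : ℝ} (hu : 0 < u) (hu1 : u ≤ 1) {p : ℝ} (hp : p ≤ 0) : 1 ≤ u ^ p :=
  Real.one_le_rpow_of_pos_of_le_one_of_nonpos hu hu1 hp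

theorem rpow_neg_le_inv {κ u : ℝ} (hκ : 0 < κ) (hκu : κ ≤ u) (hu1 : u ≤ 1) {p : ℝ} (hp : -1 ≤ p)
    (_hp0 : p ≤ 0) : u ^ p ≤ 1 / κ := by
  have hu := hκ.trans_le hκu
  calc u ^ p ≤ u ^ (-1 : ℝ) := Real.rpow_le_rpow_of_exponent_ge hu hu1 hp
    _ ≤ 1 / κ := by rw [Real.rpow_neg_one, one_div]; exact inv_anti₀ hκ hκu

/-- The smaller of two levels, measured at one of them. -/
theorem min_mul_rpow_le {u t : ℝ} (hu : 0 < u) (ht : 0 < t) :
    min u t * u ^ (-(9 / 10) : ℝ) ≤ t ^ (1 / 10 : ℝ) := by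
  rcases le_total u t with h | h
  · rw [min_eq_left h]
    nth_rewrite 1 [← Real.rpow_one u]
    rw [rpow_split hu (show (1 : ℝ) + -(9 / 10) = 1 / 10 by norm_num)]
    exact Real.rpow_le_rpow hu.le h (by norm_num)
  · rw [min_eq_right h]
    calc t * u ^ (-(9 / 10) : ℝ) ≤ t * t ^ (-(9 / 10) : ℝ) :=
          mul_le_mul_of_nonneg_left (Real.rpow_le_rpow_of_nonpos ht h (by norm_num)) ht.le
      _ = t ^ (1 / 10 : ℝ) := by
          nth_rewrite 1 [← Real.rpow_one t]
          exact rpow_split ht (by norm_num)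

theorem muF_sq {κ : ℝ} (hκ : 0 < κ) (w : ℝ) :
    muF κ w * muF κ w = xi κ w ^ 2 * uF κ w ^ (-(11 / 20) : ℝ) := by
  have h := rpow_split (uF_pos hκ w) (show (-(11 / 40) : ℝ) + -(11 / 40) = -(11 / 20) by norm_num)
  unfold muF
  linear_combination (xi κ w ^ 2) * h

theorem muF_pos {κ : ℝ} (hκ : 0 < κ) (w : ℝ) : 0 < muF κ w :=
  mul_pos (xi_pos hκ w) (Real.rpow_pos_of_pos (uF_pos hκ w) _)

/-- The diagonal coefficient through the correction. -/
theorem diagF_eq (κ w a b : ℝ) :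
    diagF κ w a b = -((a + b) / 2 * c2 κ w / 2)
      + ((a - b) / 2) ^ 2 * (s1 κ w + 2 * sF κ w * ((a + b) / 2))
      + |(a - b) / 2| * eF κ w a b := by
  rw [diagF, s2, eF, DF]
  ring

/-- The diagonal coefficient without the split is of order `u / ξ²`. -/
theorem diag_flat_bounds {κ w a b Pa Pb : ℝ} (h : GoodPt κ w a b Pa Pb) (he0 : 0 ≤ eF κ w a b) :
    -(2000 * (uF κ w / xi κ w ^ 2))
        ≤ diagF κ w a b - ((a + b) / 2 + |(a - b) / 2|) * eF κ w a b ∧
      diagF κ w a b - ((a + b) / 2 + |(a - b) / 2|) * eF κ w a b ≤ 0 := by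
  have hκ := h.κ_pos
  have hκ1 := h.κ_le
  have hΓ : 0 ≤ (a + b) / 2 := by linarith [h.a_pos, h.b_pos]
  obtain ⟨-, hzu⟩ := gam_le hκ hκ1 hΓ h.w_pos h.w_le h.T_nonneg
  obtain ⟨hc0, hc⟩ := c2_bounds hκ w
  have hx := xi_pos hκ w
  have hu := uF_pos hκ w
  have hu1 := uF_le hκ w
  have hw1 : w ≤ 1 := by linarith [h.w_le, h.κ_pos]
  have hs1 := abs_le.1 (abs_s1_le hκ hκ1 h.w_pos.le hw1)
  have hs0 := sF_nonneg hκ hκ1 h.w_pos.le h.w_le
  have hd := h.diff_le
  have he := h.eF_le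
  refine ⟨?_, ?_⟩
  swap
  · have h1 := h.diag_le
    have h2 : 0 ≤ uF κ w * uF κ w ^ (1 / 10 : ℝ) / (2 * xi κ w ^ 2) := by
      have := Real.rpow_pos_of_pos hu (1 / 10 : ℝ)
      positivity
    have h3 : 0 ≤ ((a + b) / 2 + |(a - b) / 2|) * eF κ w a b :=
      mul_nonneg (add_nonneg hΓ (abs_nonneg _)) he0
    linarith
  set Γ := (a + b) / 2 with hΓdef
  set d := (a - b) / 2 with hddef
  set u := uF κ w with hudef
  set e := eF κ w a b with hedef
  have hsplit : diagF κ w a b - (Γ + |d|) * e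
      = -(Γ * c2 κ w / 2) + d ^ 2 * (s1 κ w + 2 * sF κ w * Γ) - Γ * e := by
    rw [diagF_eq, ← hΓdef, ← hddef, ← hedef]; ring
  rw [hsplit, ← mul_div_assoc, ← neg_div, div_le_iff₀ (pow_pos hx 2)]
  have hq : Γ * xi κ w ≤ 2 := by linarith
  have hq0 : 0 ≤ Γ * xi κ w := mul_nonneg hΓ hx.le
  have h1 : Γ * c2 κ w / 2 * xi κ w ^ 2 ≤ 3 * u := by
    have hcx : c2 κ w * xi κ w ≤ 11 / 5 * u := (le_div_iff₀ hx).1 hc
    calc Γ * c2 κ w / 2 * xi κ w ^ 2 = (Γ * xi κ w) * (c2 κ w * xi κ w) / 2 := by ring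
      _ ≤ 2 * (11 / 5 * u) / 2 :=
          div_le_div_of_nonneg_right (mul_le_mul hq hcx (mul_nonneg hc0 hx.le) zero_le_two)
            zero_le_two
      _ ≤ 3 * u := by linarith
  have h2 : -(2 * (24 * u) ^ 2) ≤ d ^ 2 * (s1 κ w + 2 * sF κ w * Γ) * xi κ w ^ 2 := by
    have hd2 : (|d| * xi κ w) ^ 2 ≤ (24 * u) ^ 2 :=
      pow_le_pow_left₀ (mul_nonneg (abs_nonneg d) hx.le) hd 2
    rw [mul_pow, sq_abs] at hd2
    have h3 : -2 ≤ s1 κ w + 2 * sF κ w * Γ := by nlinarith [mul_nonneg hs0 hΓ]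
    have h4 := mul_le_mul_of_nonneg_left h3 (mul_nonneg (sq_nonneg d) (sq_nonneg (xi κ w)))
    nlinarith
  have h3 : Γ * e * xi κ w ^ 2 ≤ 200 * u := by
    calc Γ * e * xi κ w ^ 2 = (Γ * xi κ w) * (e * xi κ w) := by ring
      _ ≤ 2 * (100 * u) := mul_le_mul hq he (mul_nonneg he0 hx.le) zero_le_two
      _ = _ := by ring
  nlinarith [mul_le_mul_of_nonneg_left hu1 hu.le]

/-- The diagonal coefficient of the budget against the square of the multiplier. -/
noncomputable def diagV (κ lG w a b p : ℝ) : ℝ :=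
  (p * (diagF κ w a b - ((a + b) / 2 + |(a - b) / 2|) * eF κ w a b) + lG * (a ^ 3 + b ^ 3))
    * (muF κ w * muF κ w)

/-- The part of the loss. -/
noncomputable def lossV (κ w a b : ℝ) : ℝ :=
  muF κ w * muF κ w * ((a + b) / 2 + |(a - b) / 2|)

/-- The cubic remainder is negligible. -/
theorem cubic_small {κ lG w a b p : ℝ} (hκ : 0 < κ) (hκ2 : κ ≤ 1 / 10000000000) (hw0 : 0 ≤ w)
    (ha0 : 0 < a) (hb0 : 0 < b) (ha3 : a * xi κ w ≤ 3) (hb3 : b * xi κ w ≤ 3) (hp : 0 < p)
    (hlG0 : 0 ≤ lG) (hlG : lG ≤ κ ^ 6 * p) :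
    0 ≤ lG * (a ^ 3 + b ^ 3) * (muF κ w * muF κ w) ∧
      lG * (a ^ 3 + b ^ 3) * (muF κ w * muF κ w) ≤ p / 10 ^ 6 * κ ^ 2 := by
  have hκ1 : 100000000 * κ ≤ 1 / 100 := by linarith
  have hξ0 := xi_pos hκ w
  have hu0 := uF_pos hκ w
  have hu1 : uF κ w ≤ 1 := by linarith [uF_le hκ w]
  have hpow : 0 < uF κ w ^ (-(11 / 20) : ℝ) := Real.rpow_pos_of_pos hu0 _
  have hab : 0 ≤ a ^ 3 + b ^ 3 := by positivity
  refine ⟨mul_nonneg (mul_nonneg hlG0 hab) (mul_self_nonneg _), ?_⟩
  have h3 : (a ^ 3 + b ^ 3) * xi κ w ^ 3 ≤ 54 := by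
    have h1 := pow_le_pow_left₀ (mul_nonneg ha0.le hξ0.le) ha3 3
    have h2 := pow_le_pow_left₀ (mul_nonneg hb0.le hξ0.le) hb3 3
    rw [mul_pow] at h1 h2
    linarith
  have h4 : uF κ w ^ (-(11 / 20) : ℝ) ≤ 1 / κ :=
    rpow_neg_le_inv hκ (le_uF hκ hκ1 hw0) hu1 (by norm_num) (by norm_num)
  rw [muF_sq hκ]
  have hξk := xi_ge κ w
  have h5 : lG * (a ^ 3 + b ^ 3) * (xi κ w ^ 2 * uF κ w ^ (-(11 / 20) : ℝ)) * xi κ w
      ≤ κ ^ 6 * p * 54 * (1 / κ) := by
    calc lG * (a ^ 3 + b ^ 3) * (xi κ w ^ 2 * uF κ w ^ (-(11 / 20) : ℝ)) * xi κ w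
        = lG * ((a ^ 3 + b ^ 3) * xi κ w ^ 3) * uF κ w ^ (-(11 / 20) : ℝ) := by ring
      _ ≤ _ := mul_le_mul (mul_le_mul hlG h3 (mul_nonneg hab (pow_nonneg hξ0.le 3))
          (by positivity)) h4 hpow.le (by positivity)
  have h6 : κ ^ 6 * p * 54 * (1 / κ) = p * κ ^ 4 * 54 * κ := by field_simp
  have h7 : lG * (a ^ 3 + b ^ 3) * (xi κ w ^ 2 * uF κ w ^ (-(11 / 20) : ℝ)) * (100000000 * κ)
      ≤ p * κ ^ 4 * 54 * κ := by
    rw [← h6]
    exact le_trans (mul_le_mul_of_nonneg_left hξk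
      (mul_nonneg (mul_nonneg hlG0 hab) (mul_nonneg (sq_nonneg _) hpow.le))) h5
  rw [← mul_assoc _ (100000000 : ℝ) κ] at h7
  have h8 := le_of_mul_le_mul_right h7 hκ
  have h9 : κ ^ 4 ≤ κ ^ 2 := pow_le_pow_of_le_one hκ.le (by linarith) (by norm_num)
  linarith [mul_le_mul_of_nonneg_left h9 hp.le,
    mul_nonneg hp.le (sq_nonneg κ)]

/-- The values at a point of small excess. -/
theorem reg_values {κ lG w a b Pa Pb p : ℝ} (h : GoodPt κ w a b Pa Pb)
    (hκ2 : κ ≤ 1 / 10000000000) (ha3 : a * xi κ w ≤ 3) (hb3 : b * xi κ w ≤ 3)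
    (he0 : 0 ≤ eF κ w a b) (hp : 0 < p) (hlG0 : 0 ≤ lG) (hlG : lG ≤ κ ^ 6 * p) :
    diagV κ lG w a b p + p * eF κ w a b * lossV κ w a b
        ≤ -(3 / 8) * (p * uF κ w ^ (11 / 20 : ℝ)) ∧
      |diagV κ lG w a b p| ≤ 3000 * (p * uF κ w ^ (7 / 20 : ℝ)) := by
  have hκ := h.κ_pos
  obtain ⟨hc0, hc1⟩ := cubic_small hκ hκ2 h.w_pos.le h.a_pos h.b_pos ha3 hb3 hp hlG0 hlG
  obtain ⟨hlo, hhi⟩ := diag_flat_bounds h he0
  have hdiag := h.diag_le
  have hm2 := muF_sq hκ w
  have hx := xi_pos hκ w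
  unfold diagV lossV
  set u := uF κ w with hu
  set ξ := xi κ w with hξ
  set m := muF κ w with hm
  set D := diagF κ w a b with hDdef
  set G := (a + b) / 2 + |(a - b) / 2| with hG
  set e := eF κ w a b with he
  have hu0 : 0 < u := uF_pos hκ w
  have hu1 : u ≤ 1 := by linarith [uF_le hκ w]
  have hκu : κ ≤ u := le_uF hκ (by linarith) h.w_pos.le
  have hgain : u * u ^ (1 / 10 : ℝ) * u ^ (-(11 / 20) : ℝ) = u ^ (11 / 20 : ℝ) := by
    nth_rewrite 1 [← Real.rpow_one u]
    rw [rpow_split hu0 (show (1 : ℝ) + 1 / 10 = 11 / 10 by norm_num),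
      rpow_split hu0 (show (11 / 10 : ℝ) + -(11 / 20) = 11 / 20 by norm_num)]
  have h45 : u * u ^ (-(11 / 20) : ℝ) ≤ u ^ (7 / 20 : ℝ) := by
    nth_rewrite 1 [← Real.rpow_one u]
    rw [rpow_split hu0 (show (1 : ℝ) + -(11 / 20) = 9 / 20 by norm_num)]
    exact Real.rpow_le_rpow_of_exponent_ge hu0 hu1 (by norm_num)
  have hk2 : κ ^ 2 ≤ u ^ (11 / 20 : ℝ) := by
    calc κ ^ 2 ≤ u ^ 2 := pow_le_pow_left₀ hκ.le hκu 2
      _ = u ^ (2 : ℝ) := by norm_num
      _ ≤ _ := Real.rpow_le_rpow_of_exponent_ge hu0 hu1 (by norm_num)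
  have hk3 : u ^ (11 / 20 : ℝ) ≤ u ^ (7 / 20 : ℝ) :=
    Real.rpow_le_rpow_of_exponent_ge hu0 hu1 (by norm_num)
  have hD : D * (m * m) ≤ -(u ^ (11 / 20 : ℝ) / 2) := by
    refine (mul_le_mul_of_nonneg_right hdiag (mul_self_nonneg _)).trans (le_of_eq ?_)
    rw [← hgain, hm2]
    field_simp
  have h5 : -(2000 * u ^ (7 / 20 : ℝ)) ≤ (D - G * e) * (m * m) := by
    refine le_trans ?_ (mul_le_mul_of_nonneg_right hlo (mul_self_nonneg _))
    rw [hm2, show -(2000 * (u / ξ ^ 2)) * (ξ ^ 2 * u ^ (-(11 / 20) : ℝ))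
      = -(2000 * (u * u ^ (-(11 / 20) : ℝ))) by field_simp]
    linarith
  have h4 : (D - G * e) * (m * m) ≤ 0 :=
    mul_nonpos_of_nonpos_of_nonneg hhi (mul_self_nonneg _)
  have h6 := mul_le_mul_of_nonneg_left h5 hp.le
  have h7 := mul_le_mul_of_nonneg_left h4 hp.le
  have h8 := mul_le_mul_of_nonneg_left hk2 hp.le
  have h9 := mul_le_mul_of_nonneg_left hk3 hp.le
  have h10 := mul_le_mul_of_nonneg_left hD hp.le
  have h11 : 0 ≤ p * u ^ (7 / 20 : ℝ) := by positivity
  have h12 : p / 10 ^ 6 * κ ^ 2 ≤ p * κ ^ 2 / 10 := by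
    linarith [mul_nonneg hp.le (sq_nonneg κ)]
  refine ⟨?_, abs_le.2 ⟨?_, ?_⟩⟩ <;> linarith

/-- The values at a point of large excess. -/
theorem bad_values {κ lG w a b p : ℝ} (hκ : 0 < κ) (hκ2 : κ ≤ 1 / 10000000000) (hw0 : 0 ≤ w)
    (hw1 : w ≤ 1 - 100000000 * κ) (ha0 : 0 < a) (hb0 : 0 < b) (ha3 : a * xi κ w ≤ 3)
    (hb3 : b * xi κ w ≤ 3) (hn : sF κ w / 2 ≤ xi κ w) (_he0 : 0 ≤ eF κ w a b)
    (he5 : eF κ w a b * xi κ w ≤ 5) (hp : 0 < p) (hlG0 : 0 ≤ lG) (hlG : lG ≤ κ ^ 6 * p) :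
    diagV κ lG w a b p + p * eF κ w a b * lossV κ w a b ≤ p * (111 / κ) ∧
      |diagV κ lG w a b p| ≤ p * (111 / κ) := by
  obtain ⟨hc0, hc1⟩ := cubic_small hκ hκ2 hw0 ha0 hb0 ha3 hb3 hp hlG0 hlG
  have hκ1 : 100000000 * κ ≤ 1 / 100 := by linarith
  have hξ0 := xi_pos hκ w
  have hu0 := uF_pos hκ w
  have hu8 := uF_le hκ w
  have hpk : uF κ w ^ (-(11 / 20) : ℝ) ≤ 1 / κ :=
    rpow_neg_le_inv hκ (le_uF hκ hκ1 hw0) (by linarith) (by norm_num) (by norm_num)
  have hpow : 0 < uF κ w ^ (-(11 / 20) : ℝ) := Real.rpow_pos_of_pos hu0 _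
  have hs1 : |s1 κ w| ≤ 2 := abs_s1_le hκ hκ1 hw0 (by linarith)
  have hs2 : |s2 κ w| * xi κ w ≤ 3 := by
    obtain ⟨c0, c1'⟩ := c2_bounds hκ w
    have hcx : c2 κ w * xi κ w ≤ 11 / 5 * uF κ w := (le_div_iff₀ hξ0).1 c1'
    have hξ1 := xi_le_one hκ1 hw0
    have h0 : -2 - c2 κ w ≤ 0 := by linarith
    rw [s2, abs_of_nonpos h0]
    linarith
  have hn0 : 0 ≤ sF κ w / 2 := by
    have := sF_nonneg hκ hκ1 hw0 hw1; linarith
  have hTb : |diagF κ w a b - ((a + b) / 2 + |(a - b) / 2|) * eF κ w a b| * xi κ w ^ 2 ≤ 80 := by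
    have hTeq : diagF κ w a b - ((a + b) / 2 + |(a - b) / 2|) * eF κ w a b
        = (a + b) / 2 * (s2 κ w / 2) + s1 κ w * ((a ^ 2 + b ^ 2) / 2)
          + sF κ w / 2 * (a ^ 3 + b ^ 3) := by rw [diagF]; ring
    have hA : |(a + b) / 2 * (s2 κ w / 2)| * xi κ w ^ 2 ≤ 5 := by
      rw [abs_mul, abs_of_pos (by linarith : (0 : ℝ) < (a + b) / 2), abs_div, abs_two]
      calc (a + b) / 2 * (|s2 κ w| / 2) * xi κ w ^ 2
          = ((a * xi κ w + b * xi κ w) / 2) * (|s2 κ w| * xi κ w) / 2 := by ring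
        _ ≤ 3 * 3 / 2 := div_le_div_of_nonneg_right
            (mul_le_mul (by linarith) hs2 (by positivity) (by norm_num)) zero_le_two
        _ ≤ 5 := by norm_num
    have ha2 := pow_le_pow_left₀ (mul_nonneg ha0.le hξ0.le) ha3 2
    have hb2 := pow_le_pow_left₀ (mul_nonneg hb0.le hξ0.le) hb3 2
    have ha3' := pow_le_pow_left₀ (mul_nonneg ha0.le hξ0.le) ha3 3
    have hb3' := pow_le_pow_left₀ (mul_nonneg hb0.le hξ0.le) hb3 3
    have hB : |s1 κ w * ((a ^ 2 + b ^ 2) / 2)| * xi κ w ^ 2 ≤ 18 := by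
      rw [abs_mul, abs_of_pos (by positivity : (0 : ℝ) < (a ^ 2 + b ^ 2) / 2)]
      calc |s1 κ w| * ((a ^ 2 + b ^ 2) / 2) * xi κ w ^ 2
          = |s1 κ w| * (((a * xi κ w) ^ 2 + (b * xi κ w) ^ 2) / 2) := by ring
        _ ≤ 2 * 9 := mul_le_mul hs1 (by linarith) (by positivity) zero_le_two
        _ = 18 := by norm_num
    have hab : 0 ≤ a ^ 3 + b ^ 3 := by positivity
    have hC : |sF κ w / 2 * (a ^ 3 + b ^ 3)| * xi κ w ^ 2 ≤ 54 := by
      rw [abs_of_nonneg (mul_nonneg hn0 hab)]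
      calc sF κ w / 2 * (a ^ 3 + b ^ 3) * xi κ w ^ 2
          ≤ xi κ w * (a ^ 3 + b ^ 3) * xi κ w ^ 2 :=
            mul_le_mul_of_nonneg_right (mul_le_mul_of_nonneg_right hn hab) (sq_nonneg _)
        _ = (a * xi κ w) ^ 3 + (b * xi κ w) ^ 3 := by ring
        _ ≤ 54 := by linarith
    rw [hTeq]
    have h := abs_add_three ((a + b) / 2 * (s2 κ w / 2)) (s1 κ w * ((a ^ 2 + b ^ 2) / 2))
      (sF κ w / 2 * (a ^ 3 + b ^ 3))
    linarith [mul_le_mul_of_nonneg_right h (sq_nonneg (xi κ w))]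
  have hm2 := muF_sq hκ w
  unfold diagV lossV
  set T := diagF κ w a b - ((a + b) / 2 + |(a - b) / 2|) * eF κ w a b with hT
  set m := muF κ w with hm
  have h4 : |T| * (m * m) ≤ 80 / κ := by
    rw [hm2]
    calc |T| * (xi κ w ^ 2 * uF κ w ^ (-(11 / 20) : ℝ))
        = (|T| * xi κ w ^ 2) * uF κ w ^ (-(11 / 20) : ℝ) := by ring
      _ ≤ 80 * (1 / κ) := mul_le_mul hTb hpk hpow.le (by norm_num)
      _ = 80 / κ := by ring
  have h5 : κ ^ 2 / 10 ^ 6 ≤ 1 / κ := by
    rw [div_le_div_iff₀ (by norm_num) hκ]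
    have : κ ^ 3 ≤ 1 := pow_le_one₀ hκ.le (by linarith)
    linarith
  have hg6 : ((a + b) / 2 + |(a - b) / 2|) * xi κ w ≤ 6 := by
    have : |(a - b) / 2| ≤ (a + b) / 2 := abs_le.2 ⟨by linarith, by linarith⟩
    linarith [mul_le_mul_of_nonneg_right this hξ0.le]
  have hF2 : p * eF κ w a b * (m * m * ((a + b) / 2 + |(a - b) / 2|)) ≤ p * (30 / κ) := by
    rw [hm2, mul_assoc p]
    refine mul_le_mul_of_nonneg_left ?_ hp.le
    calc eF κ w a b * (xi κ w ^ 2 * uF κ w ^ (-(11 / 20) : ℝ) * ((a + b) / 2 + |(a - b) / 2|))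
        = (eF κ w a b * xi κ w) * (((a + b) / 2 + |(a - b) / 2|) * xi κ w)
            * uF κ w ^ (-(11 / 20) : ℝ) := by ring
      _ ≤ 5 * 6 * (1 / κ) := mul_le_mul
          (mul_le_mul he5 hg6 (by positivity) (by norm_num)) hpk hpow.le (by norm_num)
      _ = 30 / κ := by ring
  have h6 := mul_le_mul_of_nonneg_left h4 hp.le
  have h7 := mul_le_mul_of_nonneg_left h5 hp.le
  have h9 : 0 ≤ p * (30 / κ) := by positivity
  have h10 := mul_le_mul_of_nonneg_left (mul_le_mul_of_nonneg_right (le_abs_self T) (mul_self_nonneg m)) hp.le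
  have h11 := mul_le_mul_of_nonneg_left (mul_le_mul_of_nonneg_right (neg_le_abs T) (mul_self_nonneg m)) hp.le
  have e1 : p * (111 / κ) = p * (80 / κ) + p * (1 / κ) + p * (30 / κ) := by ring
  refine ⟨?_, abs_le.2 ⟨?_, ?_⟩⟩ <;> linarith

/-! ### functions on fine cells -/

/-- A positive function is nearly constant on fine cells. -/
theorem exists_fine (u : C(X, ℝ)) (hu : ∀ x, 0 < u x) :
    ∃ π : DiscreteQuotient X, ∀ x y, π.proj x = π.proj y → u x ≤ 2 * u y := by
  classical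
  have hV : ∀ x, ∃ V : Set X, IsClopen V ∧ x ∈ V ∧ ∀ y ∈ V, 3 / 4 * u x < u y ∧ u y < 5 / 4 * u x :=
    fun x => by
      have ho : IsOpen {y | 3 / 4 * u x < u y ∧ u y < 5 / 4 * u x} :=
        (isOpen_lt continuous_const (map_continuous u)).inter
          (isOpen_lt (map_continuous u) continuous_const)
      obtain ⟨V, hV, hxV, hsub⟩ := compact_exists_isClopen_in_isOpen ho
        (show x ∈ {y | 3 / 4 * u x < u y ∧ u y < 5 / 4 * u x} from
          ⟨by linarith [hu x], by linarith [hu x]⟩)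
      exact ⟨V, hV, hxV, fun y hy => hsub hy⟩
  choose V hVc hxV hVb using hV
  obtain ⟨t, ht⟩ := isCompact_univ.elim_finite_subcover V (fun x => (hVc x).isOpen)
    fun x _ => Set.mem_iUnion.2 ⟨x, hxV x⟩
  have hev : ∀ a ∈ t, ∀ᶠ π : DiscreteQuotient X in atBot, ∀ x y, π.proj x = π.proj y →
      ind (V a) (hVc a) x = ind (V a) (hVc a) y := fun a _ =>
    eventually_const_on_cells fun x => by
      by_cases h : x ∈ V a <;> simp [ind, LocallyConstant.charFn, h]
  obtain ⟨π, hπ⟩ := ((Finset.eventually_all t).2 hev).exists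
  refine ⟨π, fun x y hxy => ?_⟩
  obtain ⟨a, ha, hya⟩ : ∃ a ∈ t, y ∈ V a := by simpa using ht (Set.mem_univ y)
  have hxa : x ∈ V a := by
    by_contra hn
    have h := hπ a ha x y hxy
    simp [ind, LocallyConstant.charFn, hn, hya] at h
  linarith [(hVb a x hxa).2, (hVb a y hya).1, hu a]

theorem abs_le_def (f : C(X, ℝ)) :
    ∃ g : C(X, ℝ), ∀ x, g x = |f x| :=
  ⟨⟨fun x => |f x|, by fun_prop⟩, fun _ => rfl⟩

/-! ### the charge of the complement as a functional -/

section Charge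

variable {r : ℕ} {d : WData X r} {C : SCore M X} (hF : ∀ c, (d.F c).FromNrm C) (hd : d.OkW)
  (c : Fin r) (m : ℕ)

/-- The form of the complement against a function. -/
noncomputable def chg (f : C(X, ℝ)) : ℝ :=
  C.form (C.r f) 1 (C.mulS (d.act c)) (d.HW C hF c m)

include hd

theorem chg_add (f g : C(X, ℝ)) : chg hF c m (f + g) = chg hF c m f + chg hF c m g :=
  tendsto_nhds_unique (tendsto_charge C hF hd c m (f + g))
    (((tendsto_charge C hF hd c m f).add (tendsto_charge C hF hd c m g)).congr fun π => by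
      simp only [add_mul, C.ig_add, Finset.sum_add_distrib])

theorem chg_neg (f : C(X, ℝ)) : chg hF c m (-f) = -chg hF c m f :=
  tendsto_nhds_unique (tendsto_charge C hF hd c m (-f))
    ((tendsto_charge C hF hd c m f).neg.congr fun π => by
      simp only [neg_mul, C.ig_neg, Finset.sum_neg_distrib])

theorem chg_smul (t : ℝ) (f : C(X, ℝ)) : chg hF c m (t • f) = t * chg hF c m f :=
  tendsto_nhds_unique (tendsto_charge C hF hd c m (t • f))
    (((tendsto_charge C hF hd c m f).const_mul t).congr fun π => by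
      simp only [smul_mul_assoc, C.ig_smul, Finset.mul_sum])

theorem chg_nonneg {f : C(X, ℝ)} (hf : 0 ≤ f) : 0 ≤ chg hF c m f := by
  have h1 := WData.form_HW_le C hF hd 1 c m (C.r_nonneg hf) (1 : M)
  rw [one_mul, one_mul] at h1
  exact ((C.isSemi_form (C.r_nonneg hf) 1).nonneg _).trans h1

theorem chg_mono {f g : C(X, ℝ)} (h : f ≤ g) : chg hF c m f ≤ chg hF c m g := by
  have h1 := chg_nonneg hF hd c m (sub_nonneg.2 h)
  rw [sub_eq_add_neg, chg_add hF hd, chg_neg hF hd] at h1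
  linarith

theorem chg_le_ig {f : C(X, ℝ)} (hf : 0 ≤ f) : chg hF c m f ≤ C.ig (f * d.act c) := by
  have hr := C.r_nonneg hf
  have h2 := WData.form_HW_le_act C hF hd 1 c m hr (1 : M)
  rw [one_mul, one_mul] at h2
  set A := C.mulS (d.act c) with hA
  set H := d.HW C hF c m with hH
  have h0 := (C.isSemi_form hr 1).nonneg (A + (-1 : ℝ) • H)
  simp only [map_add, map_smul, LinearMap.add_apply, LinearMap.smul_apply, smul_eq_mul] at h0
  have hs := C.form_symm (C.r_isSelfAdjoint f) 1 H A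
  have hact : C.form (C.r f) 1 A A = C.ig (f * d.act c) := by
    rw [hA, C.form_mulS _ _ (C.r_isSelfAdjoint f), one_mul, star_one, mul_one, C.Er_r]
    show C.ig _ = _
    congr 1
    ext x
    rcases hd.base.act_01 c x with h | h <;> simp [h]
  show C.form (C.r f) 1 A H ≤ _
  linarith

end Charge

end ColourAux

open ColourAux

variable {P : Prm M} {C : SCore M X} {r : ℕ} {s : Config M X r} {δ : ℝ}

namespace Ctx

variable (ctx : Ctx P C s δ)

/-- The gain of one colour. -/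
noncomputable def gainI (c : Fin r) : ℝ :=
  C.ig (P.price C s * ctx.reg c * P.gainC (s.col c))

/-- The mass of the bad points of one colour. -/
noncomputable def badI (c : Fin r) : ℝ :=
  C.ig ((s.col c).act * ctx.bad c) + ∑ i, C.tr ((s.col c).Z i)

theorem reg_cases (c : Fin r) (x : X) :
    (ctx.good c x = 0 ∧ ctx.reg c x = 0) ∨
      (ctx.good c x = 1 ∧ ctx.bad c x = 0 ∧ ctx.reg c x = 1) ∨
      (ctx.good c x = 1 ∧ ctx.bad c x = 1 ∧ ctx.reg c x = 0) := by
  rcases ctx.good_01 c x with hg | hg <;> rcases ctx.bad_01 c x with hb | hb <;>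
    simp [Ctx.reg, hg, hb]

theorem reg_nonneg (c : Fin r) (x : X) : 0 ≤ ctx.reg c x ∧ ctx.reg c x ≤ 1 := by
  rcases ctx.reg_cases c x with ⟨-, h⟩ | ⟨-, -, h⟩ | ⟨-, -, h⟩ <;> simp [h]

/-- The pointwise bounds at an exact point. -/
structure PtBd (ctx : Ctx P C s δ) (c : Fin r) (x : X) : Prop where
  act : (s.col c).act x = 1
  p_ge : P.pmin ≤ P.price C s x
  pc_eq : P.pc C s x = P.price C s x
  p_le : P.price C s x ≤ P.pmax r
  W0 : 0 ≤ (s.col c).W x
  W1 : (s.col c).W x ≤ P.Wa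
  γ_pos : ∀ i, 0 < P.γ C (s.col c) i x
  γ_le : ∀ i, P.γ C (s.col c) i x * xi P.κ ((s.col c).W x) ≤ 3
  n_ge : P.κ * xi P.κ ((s.col c).W x) / 32 ≤ P.nc (s.col c) x
  n_le : P.nc (s.col c) x ≤ xi P.κ ((s.col c).W x)
  e0 : 0 ≤ P.eC C (s.col c) x
  e_le : P.eC C (s.col c) x * xi P.κ ((s.col c).W x) ≤ 5
  u_ge : P.κ ≤ uF P.κ ((s.col c).W x)
  lG_le : P.lG ≤ P.κ ^ 6 * P.price C s x

theorem ptBd (hP : P.Ok C) (hs : StateOk P C s) (hg : P.Good C s) (hl : P.l ^ 3 ≤ P.κ ^ 8)
    {c : Fin r} {x : X} (hx : ctx.good c x = 1) : PtBd ctx c x := by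
  obtain ⟨hact, -, hp, hpc, -, he0, heD⟩ := ctx.good_facts hP hs hg hx
  obtain ⟨-, hγ, -, hD, hn, hn', -⟩ := Prm.act_facts hP (hs.col c) hact
  obtain ⟨hW0, hW1⟩ := (hs.col c).W_mem x
  have hκ := P.κ_pos
  have hx0 := xi_pos hκ ((s.col c).W x)
  refine ⟨hact, hp, hpc, hpc ▸ (price_bounds hs x).2.2, hW0, hW1, fun i => (hγ i).1,
    fun i => (hγ i).2, ?_, hn', he0, ?_, le_uF hκ P.κ_le hW0, ?_⟩
  · refine le_trans (le_of_eq ?_) hn
    unfold Prm.b1; ring
  · exact (le_div_iff₀ hx0).1 (heD.trans hD)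
  · have h1 : P.lG ≤ P.l * P.κ ^ 8 := by
      unfold Prm.lG
      calc P.l ^ 4 = P.l * P.l ^ 3 := by ring
        _ ≤ _ := mul_le_mul_of_nonneg_left hl P.l_pos.le
    refine h1.trans (le_trans ?_ (mul_le_mul_of_nonneg_left hp (by positivity)))
    unfold Prm.pmin
    have hk : P.κ ≤ 1 := by linarith [P.κ_le]
    have h2 : P.κ ^ 8 ≤ P.κ ^ 6 * (100000000 * P.κ / 10) := by
      have : P.κ ^ 8 ≤ P.κ ^ 7 := pow_le_pow_of_le_one hκ.le hk (by norm_num)
      nlinarith [pow_pos hκ 7]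
    nlinarith [mul_le_mul_of_nonneg_left h2 P.l_pos.le]

theorem Nfn_ge {c : Fin r} {x : X} (h : PtBd ctx c x) :
    P.price C s x * P.nc (s.col c) x ≤ P.Nfn C s c x ∧
      P.Nfn C s c x ≤ P.price C s x * P.nc (s.col c) x + P.κ ^ 6 * P.price C s x := by
  simp only [Prm.Nfn, ContinuousMap.add_apply, ContinuousMap.mul_apply, ContinuousMap.const_apply,
    h.act, mul_one]
  exact ⟨le_add_of_nonneg_right P.lG_pos.le, by linarith [h.lG_le]⟩

theorem Nfn_nonneg (hs : StateOk P C s) (c : Fin r) (x : X) : 0 ≤ P.Nfn C s c x := by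
  simp only [Prm.Nfn, ContinuousMap.add_apply, ContinuousMap.mul_apply, ContinuousMap.const_apply]
  obtain ⟨hW0, hW1⟩ := (hs.col c).W_mem x
  have hn : 0 ≤ P.nc (s.col c) x := by
    simp only [Prm.nc, ContinuousMap.smul_apply, smul_eq_mul]
    exact mul_nonneg (by norm_num)
      (sF_nonneg P.κ_pos P.κ_le hW0 (by simpa [Prm.Wa] using hW1))
  have ha : 0 ≤ (s.col c).act x := by rcases (hs.col c).act_01 x with h | h <;> simp [h]
  have := (price_bounds hs x).1
  have := P.lG_pos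
  positivity

/-- One sign of the superharmonicity. -/
theorem super_one (hs : StateOk P C s) (c : Fin r) (i : Bool) {f : C(X, ℝ)} (hf : 0 ≤ f)
    (hfg : f * ctx.good c = f) :
    C.ig (P.Nfn C s c * C.K (C.off ((s.col c).G i : M)) f)
      ≤ C.ig (P.price C s * P.eC C (s.col c) * f) := by
  have h := ctx.super c f hf hfg
  have h0 : ∀ i, 0 ≤ C.ig (P.Nfn C s c * C.K (C.off ((s.col c).G i : M)) f) := fun i =>
    C.ig_nonneg (ContinuousMap.le_def.2 fun x =>
      mul_nonneg (Nfn_nonneg hs c x) (ContinuousMap.le_def.1 (StepAux.K_nonneg _ hf) x))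
  have h1 := Finset.single_le_sum (fun i _ => h0 i) (Finset.mem_univ i)
  have h2 := mul_nonneg (half_pos P.l_pos).le (C.ig_nonneg hf)
  linarith

/-- A weight below the multiplier is paid by the budget. -/
theorem super_weight (hs : StateOk P C s) (c : Fin r) (i : Bool) {w f : C(X, ℝ)} {K : ℝ}
    (hK : 0 ≤ K) (hw : ∀ x, w x ≤ K * P.Nfn C s c x) (hf : 0 ≤ f) (hfg : f * ctx.good c = f) :
    C.ig (w * C.K (C.off ((s.col c).G i : M)) f)
      ≤ K * C.ig (P.price C s * P.eC C (s.col c) * f) := by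
  refine le_trans ?_ (mul_le_mul_of_nonneg_left (ctx.super_one hs c i hf hfg) hK)
  rw [← C.ig_smul]
  refine C.ig_mono (ContinuousMap.le_def.2 fun x => ?_)
  simp only [ContinuousMap.mul_apply, ContinuousMap.smul_apply, smul_eq_mul]
  nlinarith [mul_le_mul_of_nonneg_right (hw x)
    (ContinuousMap.le_def.1 (StepAux.K_nonneg (C := C) (C.off ((s.col c).G i : M)) hf) x)]

theorem ig_bad_le (hs : StateOk P C s) (c : Fin r) :
    0 ≤ C.ig ((s.col c).act * ctx.bad c) ∧
      C.ig ((s.col c).act * ctx.bad c) ≤ ctx.badI c ∧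
      ∀ i, C.ig ((s.col c).act * ctx.bad c * (1 + C.Er ((s.col c).Z i))) ≤ ctx.badI c := by
  have ha : ∀ x, 0 ≤ ((s.col c).act * ctx.bad c) x ∧ ((s.col c).act * ctx.bad c) x ≤ 1 := fun x => by
    rcases (hs.col c).act_01 x with h | h <;> rcases ctx.bad_01 c x with h' | h' <;> simp [h, h']
  have htr : ∀ i, 0 ≤ C.tr ((s.col c).Z i) := fun i => C.tr_nonneg ((hs.col c).Z_nonneg i)
  have h0 := Finset.sum_nonneg fun i (_ : i ∈ (Finset.univ : Finset Bool)) => htr i
  refine ⟨C.ig_nonneg (ContinuousMap.le_def.2 fun x => (ha x).1), le_add_of_nonneg_right h0,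
    fun i => ?_⟩
  rw [mul_add, mul_one, C.ig_add]
  refine add_le_add le_rfl (le_trans ?_ (Finset.single_le_sum (fun i _ => htr i) (Finset.mem_univ i)))
  rw [← C.ig_Er (IsSelfAdjoint.of_nonneg ((hs.col c).Z_nonneg i))]
  refine C.ig_mono (ContinuousMap.le_def.2 fun x => ?_)
  exact mul_le_of_le_one_left
    (ContinuousMap.le_def.1 (C.Er_nonneg ((hs.col c).Z_nonneg i)) x) (ha x).2

/-- The diagonal and the loss: the gain, a charge and an error on the bad points. -/
theorem eventually_diag_loss_le (hP : P.Ok C) (hs : StateOk P C s) (hg : P.Good C s)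
    (hl : P.l ^ 3 ≤ P.κ ^ 8) (F : Fin r → Fam X) (B : ℝ)
    (hd : (ctx.data F B).OkW) (hFN : ∀ c, (F c).FromNrm C) (c : Fin r) (m : ℕ)
    (sN : C(X, ℝ)) (hsN : sN * sN = P.Nfn C s c) {ε : ℝ} (hε : 0 < ε) :
    ∀ᶠ π : DiscreteQuotient X in atBot,
      (∑ c', ∑ j : π, C.ig ((P.price C s * (s.col c).act
            * ((1 / 2 : ℝ) • (P.Γc C (s.col c) * P.s2c (s.col c))
              + (1 / 2 : ℝ) • (P.s1c (s.col c) * ∑ i, P.γ C (s.col c) i * P.γ C (s.col c) i))
            + P.Nfn C s c * ∑ i, P.γ C (s.col c) i * P.γ C (s.col c) i * P.γ C (s.col c) i)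
          * ((P.μc (s.col c) * (ctx.data F B).PW m (unitVec π c' j) c)
            * (P.μc (s.col c) * (ctx.data F B).PW m (unitVec π c' j) c))))
        + (∑ c', ∑ j : π, ∑ i, C.tr (C.r sN * C.off ((s.col c).G i : M)
            * (C.r (P.μc (s.col c) * (ctx.data F B).PW m (unitVec π c' j) c) * ((s.col c).G i : M)
              * C.r (P.μc (s.col c) * (ctx.data F B).PW m (unitVec π c' j) c))
            * star (C.r sN * C.off ((s.col c).G i : M))))
        ≤ -(3 / 8) * ctx.gainI c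
          + 3000 * C.form (C.r (P.price C s * ctx.reg c * P.chargeC (s.col c))) 1
              (C.mulS (ctx.good c)) ((ctx.data F B).HW C hFN c m)
          + 300 / P.κ * P.pmax r * ctx.badI c + ε := by
  set sc := s.col c with hsc
  set μ := P.μc sc with hμ
  set Fd := P.price C s * sc.act
      * ((1 / 2 : ℝ) • (P.Γc C sc * P.s2c sc)
        + (1 / 2 : ℝ) • (P.s1c sc * ∑ i, P.γ C sc i * P.γ C sc i))
      + P.Nfn C s c * ∑ i, P.γ C sc i * P.γ C sc i * P.γ C sc i with hFd
  set f := Fd * (μ * μ) with hf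
  set g : C(X, ℝ) := ⟨fun x => P.Γc C sc x + |(P.γ C sc true x - P.γ C sc false x) / 2|,
    by fun_prop⟩ with hgdef
  set fL := μ * μ * ctx.good c * g with hfL
  have hG0 : ∀ i, (0 : M) ≤ (sc.G i : M) := fun i => (hs.col c).G_nonneg i
  have hγ0 : ∀ i x, 0 ≤ P.γ C sc i x := fun i x => ContinuousMap.le_def.1 (C.Er_nonneg (hG0 i)) x
  have hgood0 : ∀ x, 0 ≤ ctx.good c x := fun x => by rcases ctx.good_01 c x with h | h <;> simp [h]
  have hg0 : ∀ i x, P.γ C sc i x ≤ g x := fun i x => by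
    have hΓ : P.Γc C sc x = (P.γ C sc true x + P.γ C sc false x) / 2 := by
      simp [Prm.Γc]; ring
    show _ ≤ P.Γc C sc x + _
    rw [hΓ]
    cases i
    · linarith [neg_abs_le ((P.γ C sc true x - P.γ C sc false x) / 2)]
    · linarith [le_abs_self ((P.γ C sc true x - P.γ C sc false x) / 2)]
  have hfL0 : 0 ≤ fL := ContinuousMap.le_def.2 fun x => by
    simp only [hfL, ContinuousMap.mul_apply, ContinuousMap.zero_apply]
    exact mul_nonneg (mul_nonneg (mul_self_nonneg _) (hgood0 x)) ((hγ0 true x).trans (hg0 true x))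
  have hfLg : fL * ctx.good c = fL := by
    ext x
    rcases ctx.good_01 c x with h | h <;> simp [hfL, h]
  -- the loss is paid by the budget
  have hloss : ∑ i, C.tr ((C.r sN * C.off (sc.G i : M))
        * C.r (μ * μ * ctx.good c * C.Er (sc.G i : M)) * star (C.r sN * C.off (sc.G i : M)))
      ≤ C.ig (P.price C s * P.eC C sc * fL) := by
    refine le_trans (Finset.sum_le_sum fun i _ => ?_)
      ((le_add_of_nonneg_right (mul_nonneg (half_pos P.l_pos).le (C.ig_nonneg hfL0))).trans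
        (ctx.super c fL hfL0 hfLg))
    rw [tr_sandwich C sN _ (C.off_isSelfAdjoint (IsSelfAdjoint.of_nonneg (hG0 i))), hsN]
    refine C.ig_mono (ContinuousMap.le_def.2 fun x => ?_)
    simp only [ContinuousMap.mul_apply]
    refine mul_le_mul_of_nonneg_left ?_ (Nfn_nonneg hs c x)
    refine StepAux.apply_mono (StepAux.Klin C (C.off (sc.G i : M)))
      (fun a ha => StepAux.K_nonneg _ ha) (ContinuousMap.le_def.2 fun y => ?_) x
    simp only [hfL, ContinuousMap.mul_apply]
    exact mul_le_mul_of_nonneg_left (hg0 i y) (mul_nonneg (mul_self_nonneg _) (hgood0 y))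
  -- the values at the exact points
  set q := P.price C s * ctx.reg c * P.chargeC sc with hq
  set gn := P.price C s * ctx.reg c * P.gainC sc with hgn
  set bd := P.pmax r • (sc.act * ctx.bad c) with hbd
  have hκ := P.κ_pos
  have hκ2 : P.κ ≤ 1 / 10000000000 := by linarith [P.κ_le]
  have hpt : ∀ x, f x * ctx.good c x + P.price C s x * P.eC C sc x * fL x
        ≤ -(3 / 8) * gn x + 150 / P.κ * bd x ∧
      |f x| * ctx.good c x ≤ 3000 * q x + 150 / P.κ * bd x ∧
      |f x| * ctx.reg c x ≤ 3000 * q x := by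
    intro x
    have hbd0 : 0 ≤ bd x := by
      simp only [hbd, ContinuousMap.smul_apply, smul_eq_mul, ContinuousMap.mul_apply]
      refine mul_nonneg ?_ (mul_nonneg ?_ ?_)
      · exact (le_trans (P.pc_pos C s x).le (price_bounds hs x).2.2)
      · rcases (hs.col c).act_01 x with h | h <;> simp [hsc, h]
      · rcases ctx.bad_01 c x with h | h <;> simp [h]
    have hk0 : 0 ≤ 150 / P.κ * bd x := by positivity
    rcases ctx.reg_cases c x with ⟨h1, h2⟩ | ⟨h1, hb, h2⟩ | ⟨h1, hb, h2⟩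
    · simp only [hfL, hgn, hq, ContinuousMap.mul_apply, h1, h2]
      refine ⟨?_, ?_, ?_⟩ <;> nlinarith
    all_goals have B := ctx.ptBd hP hs hg hl h1
    all_goals
      have hee : eF P.κ (sc.W x) (P.γ C sc true x) (P.γ C sc false x) = P.eC C sc x := by
        simp only [Prm.eC, Prm.Dc, Prm.nc, Prm.sc, Prm.Γc, eF, ContinuousMap.sub_apply,
          ContinuousMap.mul_apply, ContinuousMap.smul_apply, ContinuousMap.add_apply,
          ContinuousMap.coe_mk, Fintype.sum_bool, smul_eq_mul, sq]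
        ring_nf
      have hfx : f x = diagV P.κ P.lG (sc.W x) (P.γ C sc true x) (P.γ C sc false x)
          (P.price C s x) := by
        have hμx : μ x = muF P.κ (sc.W x) := rfl
        simp only [hf, hFd, Prm.Nfn, Prm.nc, Prm.sc, Prm.Γc, Prm.s1c, Prm.s2c, ← hsc,
          ContinuousMap.mul_apply, ContinuousMap.add_apply, ContinuousMap.smul_apply,
          ContinuousMap.const_apply, ContinuousMap.coe_mk, Fintype.sum_bool, smul_eq_mul, hμx,
          show sc.act x = 1 from B.act, diagV, diagF]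
        ring
      have hfLx : fL x = lossV P.κ (sc.W x) (P.γ C sc true x) (P.γ C sc false x) := by
        have hμx : μ x = muF P.κ (sc.W x) := rfl
        simp only [hfL, hgdef, Prm.Γc, lossV, ContinuousMap.mul_apply, ContinuousMap.coe_mk,
          ContinuousMap.smul_apply, ContinuousMap.add_apply, smul_eq_mul, hμx, h1]
        ring
      have hp0 : 0 < P.price C s x := P.pmin_pos.trans_le B.p_ge
    · -- a point of small excess
      obtain ⟨-, hgp, -⟩ := ctx.reg_facts hP hs hg h2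
      obtain ⟨v1, v2⟩ := reg_values hgp hκ2 (B.γ_le true) (B.γ_le false)
        (hee.symm ▸ B.e0) hp0 P.lG_pos.le B.lG_le
      simp only [← hsc, hee, ← hfx, ← hfLx] at v1 v2
      have hgx : gn x = P.price C s x * uF P.κ (sc.W x) ^ (11 / 20 : ℝ) := by
        simp only [hgn, ContinuousMap.mul_apply, h2, mul_one]
        rfl
      have hqx : q x = P.price C s x * uF P.κ (sc.W x) ^ (7 / 20 : ℝ) := by
        simp only [hq, ContinuousMap.mul_apply, h2, mul_one]
        rfl
      rw [← hgx] at v1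
      rw [← hqx] at v2
      rw [h1, h2, mul_one, mul_one]
      exact ⟨by linarith, by linarith, v2⟩
    · -- a bad point
      have hbdx : bd x = P.pmax r := by
        simp [hbd, show sc.act x = 1 from B.act, hb]
      have hn1 : sF P.κ (sc.W x) / 2 ≤ xi P.κ (sc.W x) := by
        have := B.n_le
        simp only [Prm.nc, Prm.sc, ContinuousMap.smul_apply, smul_eq_mul, ContinuousMap.coe_mk,
          ← hsc] at this
        linarith
      obtain ⟨v1, v2⟩ := bad_values hκ hκ2 B.W0 B.W1 (B.γ_pos true) (B.γ_pos false)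
        (B.γ_le true) (B.γ_le false) hn1 (hee.symm ▸ B.e0) (hee.symm ▸ B.e_le) hp0 P.lG_pos.le
        B.lG_le
      simp only [← hsc, hee, ← hfx, ← hfLx] at v1 v2
      have hgx : gn x = 0 := by simp [hgn, h2]
      have hqx : q x = 0 := by simp [hq, h2]
      have hpm : P.price C s x * (111 / P.κ) ≤ 150 / P.κ * P.pmax r := by
        rw [mul_comm]
        exact mul_le_mul (div_le_div_of_nonneg_right (by norm_num) hκ.le) B.p_le hp0.le
          (by positivity)
      simp only [h1, h2, hgx, hqx, hbdx, mul_one, mul_zero, zero_add]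
      exact ⟨by linarith, by linarith, le_rfl⟩
  -- integrate
  have hmain : C.ig (f * ctx.good c) + C.ig (P.price C s * P.eC C sc * fL)
      ≤ -(3 / 8) * ctx.gainI c + 150 / P.κ * P.pmax r * C.ig (sc.act * ctx.bad c) := by
    rw [← C.ig_add]
    refine (C.ig_mono (g := -(3 / 8 : ℝ) • gn + (150 / P.κ) • bd)
      (ContinuousMap.le_def.2 fun x => by simpa using (hpt x).1)).trans (le_of_eq ?_)
    rw [C.ig_add, C.ig_smul, C.ig_smul, hbd, C.ig_smul, Ctx.gainI, hgn]
    ring
  obtain ⟨fa, hfa⟩ := abs_le_def f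
  have hchg : -(chg (d := ctx.data F B) hFN c m f) ≤ 3000 * chg (d := ctx.data F B) hFN c m q
      + 150 / P.κ * P.pmax r * C.ig (sc.act * ctx.bad c) := by
    rw [← chg_neg hFN hd]
    set f₁ := fa * ctx.reg c with hf₁
    set f₂ := fa * (1 - ctx.reg c) with hf₂
    have hle : -f ≤ f₁ + f₂ := ContinuousMap.le_def.2 fun x => by
      simp only [hf₁, hf₂, ContinuousMap.neg_apply, ContinuousMap.add_apply,
        ContinuousMap.mul_apply, ContinuousMap.sub_apply, ContinuousMap.one_apply, hfa]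
      nlinarith [neg_le_abs (f x)]
    have hf₂0 : 0 ≤ f₂ := ContinuousMap.le_def.2 fun x => by
      simp only [hf₂, ContinuousMap.zero_apply, ContinuousMap.mul_apply, ContinuousMap.sub_apply,
        ContinuousMap.one_apply, hfa]
      exact mul_nonneg (abs_nonneg _) (by linarith [(ctx.reg_nonneg c x).2])
    refine (chg_mono hFN hd c m hle).trans ?_
    rw [chg_add hFN hd]
    refine add_le_add ?_ ((chg_le_ig hFN hd c m hf₂0).trans ?_)
    · rw [← chg_smul hFN hd]
      refine chg_mono hFN hd c m (ContinuousMap.le_def.2 fun x => ?_)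
      simpa [hf₁, hfa] using (hpt x).2.2
    · refine (C.ig_mono (g := (150 / P.κ) • bd) (ContinuousMap.le_def.2 fun x => ?_)).trans
        (le_of_eq (by rw [C.ig_smul, hbd, C.ig_smul]; ring))
      show (fa * (1 - ctx.reg c) * ctx.good c) x ≤ _
      have h3 := (hpt x).2.1
      rcases ctx.reg_cases c x with ⟨h1, h2⟩ | ⟨h1, hb, h2⟩ | ⟨h1, hb, h2⟩
      · simp [h1, hbd]
        rcases (hs.col c).act_01 x with h | h <;> rcases ctx.bad_01 c x with h' | h' <;>
          simp [hsc, h, h']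
        have := (le_trans (P.pc_pos C s x).le (price_bounds hs x).2.2)
        positivity
      · simp [h1, h2, hb, hbd]
      · simpa [h1, h2, hfa, hq] using h3
  have hsum : C.ig ((sc.act * ctx.bad c)) ≤ ctx.badI c := (ctx.ig_bad_le hs c).2.1
  have hkp : 0 ≤ 300 / P.κ * P.pmax r := by
    have : 0 ≤ P.pmax r := by
      have := P.pmin_pos
      unfold Prm.pmax
      have := P.S_ge
      positivity
    positivity
  have hev1 := eventually_sq_eq C (d := ctx.data F B) hFN hd c m f (half_pos hε)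
  have hev2 := fun i : Bool => eventually_loss_le C (d := ctx.data F B) hFN hd c m μ (hG0 i)
    (C.r sN * C.off (sc.G i : M)) (show 0 < ε / 4 by positivity)
  filter_upwards [hev1, hev2 true, hev2 false] with π h1 h2 h3
  have e1 : ∀ v : C(X, ℝ), Fd * (μ * v * (μ * v)) = f * (v * v) := fun v => by rw [hf]; ring
  simp only [e1]
  have h1' := (abs_le.1 h1).2
  have h4 : ∀ (π : DiscreteQuotient X) (Φ : Fin r → π → Bool → ℝ),
      ∑ c', ∑ j, ∑ i, Φ c' j i = (∑ c', ∑ j, Φ c' j true) + ∑ c', ∑ j, Φ c' j false := fun π Φ => by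
    simp only [Fintype.sum_bool, Finset.sum_add_distrib]
  rw [h4]
  rw [Fintype.sum_bool] at hloss
  have h5 := mul_le_mul_of_nonneg_left hsum hkp
  have h6 : 300 / P.κ * P.pmax r * C.ig (sc.act * ctx.bad c)
      = 2 * (150 / P.κ * P.pmax r * C.ig (sc.act * ctx.bad c)) := by ring
  have hact : (ctx.data F B).act c = ctx.good c := rfl
  rw [hact] at h1' h2 h3
  have k2 : -(C.form (C.r f) 1 (C.mulS (ctx.good c))) ((ctx.data F B).HW C hFN c m)
      ≤ 3000 * C.form (C.r q) 1 (C.mulS (ctx.good c)) ((ctx.data F B).HW C hFN c m)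
        + 150 / P.κ * P.pmax r * C.ig (sc.act * ctx.bad c) := hchg
  linarith

/-- The relative slack of a colour is bounded. -/
theorem exists_Th_le (hs : StateOk P C s) (c : Fin r) (i : Bool) :
    ∃ R : ℝ, ∀ x, Th C ((s.col c).G i) x ≤ R * P.γ C (s.col c) i x := by
  set u : C(X, ℝ) := C.Er ((s.col c).G i : M) * C.Er (↑((s.col c).G i)⁻¹ : M) - 1 with hu
  refine ⟨‖u‖, fun x => ?_⟩
  rw [Th_eq C ((hs.col c).G_nonneg i) x, mul_comm ‖u‖]
  refine mul_le_mul_of_nonneg_left ?_
    (ContinuousMap.le_def.1 (C.Er_nonneg ((hs.col c).G_nonneg i)) x)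
  have := (abs_le.1 (u.norm_coe_le_norm x)).2
  simpa [hu] using this

/-- The kernel on the points of small excess, by classes of the scale. -/
theorem eventually_kernel_reg_le (hP : P.Ok C) (hs : StateOk P C s) (hg : P.Good C s)
    (hl : P.l ^ 3 ≤ P.κ ^ 8) (c : Fin r) (i : Bool) {Fr : C(X, ℝ)} (hFr0 : 0 ≤ Fr)
    (hFr : ∀ x, Fr x * (1 - ctx.reg c x) = 0)
    (hFrb : ∀ x, ctx.reg c x = 1 → Fr x ≤ 64 * P.price C s x * xi P.κ ((s.col c).W x) ^ 2
      * uF P.κ ((s.col c).W x) ^ (-(9 / 10) : ℝ))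
    {ε : ℝ} (hε : 0 < ε) :
    ∀ᶠ π : DiscreteQuotient X in atBot,
      ∑ j : π, C.ig (Fr * (C.K (C.off ((s.col c).G i : M))
          (P.μc (s.col c) * ctx.reg c * cellFn π j)
        * C.K (C.off ((s.col c).G i : M)) (P.μc (s.col c) * ctx.reg c * cellFn π j)))
        ≤ 2 * (10 : ℝ) ^ 10 * ctx.gainI c + ε := by
  set sc := s.col c with hsc
  set h := P.μc sc * ctx.reg c with hh
  set γ := C.Er (sc.G i : M) with hγ
  have hκ := P.κ_pos
  have hG0 : (0 : M) ≤ (sc.G i : M) := (hs.col c).G_nonneg i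
  have hγ0 : ∀ x, 0 ≤ γ x := fun x => ContinuousMap.le_def.1 (C.Er_nonneg hG0) x
  have hu : ∀ x, 0 < P.uc sc x := fun x => uF_pos hκ _
  obtain ⟨π₀, hπ₀⟩ := exists_fine (P.uc sc) hu
  obtain ⟨R, hR⟩ := exists_Th_le hs c i
  choose y hy using π₀.proj_surjective
  classical
  set cl : Option π₀ → C(X, ℝ) :=
    fun o => o.elim (1 - ctx.reg c) (fun j => ctx.reg c * cellFn π₀ j) with hcl
  set A : Option π₀ → ℝ := fun o => o.elim R (fun j => 96 * P.uc sc (y j)) with hA
  have hcell : ∀ (j : π₀) x, cellFn π₀ j x = 0 ∨ (cellFn π₀ j x = 1 ∧ π₀.proj x = j) := fun j x => by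
    classical
    rw [cellFn_apply]
    by_cases hx : π₀.proj x = j <;> simp [hx]
  have hcl01 : ∀ o x, cl o x = 0 ∨ cl o x = 1 := by
    intro o x
    rcases ctx.reg_cases c x with ⟨-, h2⟩ | ⟨-, -, h2⟩ | ⟨-, -, h2⟩ <;> rcases o with _ | j <;>
      first
        | (simp [hcl, h2]; done)
        | (rcases hcell j x with h3 | ⟨h3, -⟩ <;> simp [hcl, h2, h3])
  have hclsum : ∑ o, cl o = 1 := by
    rw [Fintype.sum_option]
    show (1 - ctx.reg c) + ∑ j, ctx.reg c * cellFn π₀ j = 1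
    rw [← Finset.mul_sum, sum_cellFn, mul_one, sub_add_cancel]
  have hreg1 : ∀ (j : π₀) x, cl (some j) x ≠ 0 →
      ctx.reg c x = 1 ∧ cl (some j) x = 1 ∧ π₀.proj x = j := by
    intro j x hne
    have h2 : cl (some j) x = ctx.reg c x * cellFn π₀ j x := rfl
    rw [h2] at hne ⊢
    rcases ctx.reg_cases c x with ⟨-, h3⟩ | ⟨-, -, h3⟩ | ⟨-, -, h3⟩ <;>
      rcases hcell j x with h4 | ⟨h4, h5⟩ <;>
      simp_all
  have hAcl : ∀ o x, cl o x * Th C (sc.G i) x ≤ A o * (cl o x * γ x) := by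
    intro o x
    rcases hcl01 o x with h0 | h0
    · simp [h0]
    rw [h0, one_mul, one_mul]
    rcases o with _ | j
    · exact hR x
    · obtain ⟨hr1, -, hj⟩ := hreg1 j x (by rw [h0]; exact one_ne_zero)
      refine ((ctx.reg_facts hP hs hg hr1).2.2.2.2.2 i).trans ?_
      have := hπ₀ x (y j) (by rw [hj, hy])
      exact mul_le_mul_of_nonneg_right (show 48 * P.uc sc x ≤ 96 * P.uc sc (y j) by linarith) (hγ0 x)
  set g := h * h * γ with hgdef
  have hg0 : 0 ≤ g := ContinuousMap.le_def.2 fun x => by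
    simp only [hgdef, ContinuousMap.zero_apply, ContinuousMap.mul_apply]
    exact mul_nonneg (mul_self_nonneg _) (hγ0 x)
  have hev := eventually_sq_K_le_min C hG0 cl hcl01 hclsum A hAcl hFr0 h hε
  filter_upwards [hev] with π hπ
  refine hπ.trans (add_le_add ?_ le_rfl)
  rw [Finset.sum_comm]
  -- one class at the cell end
  have hzero : ∀ o, Fr * cl none * γ * o = 0 := fun o => by
    ext x
    show Fr x * (1 - ctx.reg c x) * γ x * o x = 0
    rw [hFr x, zero_mul, zero_mul]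
  have hgnone : cl none * g = 0 := by
    ext x
    show (1 - ctx.reg c x) * (P.μc sc x * ctx.reg c x * (P.μc sc x * ctx.reg c x) * γ x) = 0
    rcases ctx.reg_cases c x with ⟨-, h2⟩ | ⟨-, -, h2⟩ | ⟨-, -, h2⟩ <;> simp [h2]
  set t : π₀ → ℝ := fun k => P.uc sc (y k) ^ (1 / 10 : ℝ) with ht
  have hk : ∀ k : π₀, ∑ o, min (A o) (A (some k))
      * C.ig (Fr * cl o * γ * C.K (C.off (sc.G i : M)) (cl (some k) * g))
      ≤ 27300000 * t k * C.ig (P.price C s * P.eC C sc * (cl (some k) * g)) := by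
    intro k
    set W := ∑ o, min (A o) (A (some k)) • (Fr * cl o * γ) with hW
    have e : ∑ o, min (A o) (A (some k))
        * C.ig (Fr * cl o * γ * C.K (C.off (sc.G i : M)) (cl (some k) * g))
        = C.ig (W * C.K (C.off (sc.G i : M)) (cl (some k) * g)) := by
      rw [hW, Finset.sum_mul, C.ig_sum]
      exact Finset.sum_congr rfl fun o _ => by rw [smul_mul_assoc, C.ig_smul]
    rw [e]
    refine ctx.super_weight hs c i ?_ (fun x => ?_) ?_ ?_
    · have := Real.rpow_pos_of_pos (hu (y k)) (1 / 10 : ℝ)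
      simp only [ht]; positivity
    · simp only [hW, ContinuousMap.sum_apply, ContinuousMap.smul_apply, ContinuousMap.mul_apply,
        smul_eq_mul]
      have hNn := Nfn_nonneg hs c x
      rcases ctx.reg_cases c x with ⟨-, h2⟩ | ⟨h1, -, h2⟩ | ⟨-, -, h2⟩
      case inr.inl =>
        have hB := ctx.ptBd hP hs hg hl h1
        obtain ⟨-, -, -, hn, -, -⟩ := ctx.reg_facts hP hs hg h2
        classical
        rw [Finset.sum_eq_single (some (π₀.proj x))]
        rotate_left
        · intro o _ ho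
          have : cl o x = 0 := by
            rcases o with _ | j
            · simp [hcl, h2]
            · by_contra hne
              exact ho (congrArg some (hreg1 j x hne).2.2.symm)
          simp [this]
        · simp
        have hclx : cl (some (π₀.proj x)) x = 1 := by
          show ctx.reg c x * cellFn π₀ (π₀.proj x) x = 1
          simp [h2, cellFn_apply]
        rw [hclx, mul_one]
        set w := sc.W x with hw
        set p := P.price C s x with hp
        set ξ := xi P.κ w with hξ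
        set u := uF P.κ w with hudef
        have hux : P.uc sc x = u := rfl
        have hξ0 : 0 < ξ := xi_pos hκ w
        have hu0 : 0 < u := uF_pos hκ w
        have hp0 : 0 < p := P.pmin_pos.trans_le hB.p_ge
        set uk := P.uc sc (y k) with huk
        have huk0 : 0 < uk := hu (y k)
        set ux := P.uc sc (y (π₀.proj x)) with huxd
        have hu2 : ux ≤ 2 * u := hux ▸ hπ₀ (y (π₀.proj x)) x (hy _)
        have hmin : min (A (some (π₀.proj x))) (A (some k)) ≤ 192 * min u uk := by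
          show min (96 * ux) (96 * uk) ≤ _
          rcases le_total u uk with h3 | h3
          · rw [min_eq_left h3]; exact (min_le_left _ _).trans (by linarith)
          · rw [min_eq_right h3]; exact (min_le_right _ _).trans (by linarith)
        have hFγ : Fr x * γ x ≤ 142080 * (u ^ (-(9 / 10) : ℝ) * P.Nfn C s c x) := by
          have h3 : Fr x * γ x ≤ 64 * p * ξ ^ 2 * u ^ (-(9 / 10) : ℝ) * γ x :=
            mul_le_mul_of_nonneg_right (hFrb x h2) (hγ0 x)
          have hupow := Real.rpow_pos_of_pos hu0 (-(9 / 10) : ℝ)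
          have hγ3 : γ x * ξ ≤ 3 := hB.γ_le i
          have h4 : 64 * p * ξ ^ 2 * u ^ (-(9 / 10) : ℝ) * γ x
              ≤ 192 * (u ^ (-(9 / 10) : ℝ) * (p * ξ)) := by
            calc 64 * p * ξ ^ 2 * u ^ (-(9 / 10) : ℝ) * γ x
                = 64 * (u ^ (-(9 / 10) : ℝ) * (p * ξ)) * (γ x * ξ) := by ring
              _ ≤ 64 * (u ^ (-(9 / 10) : ℝ) * (p * ξ)) * 3 :=
                  mul_le_mul_of_nonneg_left hγ3 (by positivity)
              _ = _ := by ring
          have h5 : p * ξ ≤ 740 * P.Nfn C s c x := by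
            have h6 := mul_le_mul_of_nonneg_left hn hp0.le
            have h7 := (ctx.Nfn_ge hB).1
            simp only [← hsc, ← hp] at h6 h7
            linarith
          have h8 := mul_le_mul_of_nonneg_left h5 hupow.le
          linarith
        have hm := min_mul_rpow_le hu0 huk0
        calc min (A (some (π₀.proj x))) (A (some k)) * (Fr x * γ x)
            ≤ (192 * min u uk) * (142080 * (u ^ (-(9 / 10) : ℝ) * P.Nfn C s c x)) :=
              mul_le_mul hmin hFγ (mul_nonneg (ContinuousMap.le_def.1 hFr0 x) (hγ0 x))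
                (by positivity)
          _ = 27279360 * ((min u uk * u ^ (-(9 / 10) : ℝ)) * P.Nfn C s c x) := by ring
          _ ≤ 27279360 * (t k * P.Nfn C s c x) := by
              gcongr
          _ ≤ _ := by
              have : 0 ≤ t k * P.Nfn C s c x :=
                mul_nonneg (Real.rpow_pos_of_pos huk0 _).le hNn
              linarith
      all_goals
        have hFr' : Fr x = 0 := by have := hFr x; rwa [h2, sub_zero, mul_one] at this
        simp only [hFr', zero_mul, mul_zero, Finset.sum_const_zero]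
        all_goals
          have := Real.rpow_pos_of_pos (hu (y k)) (1 / 10 : ℝ)
          positivity
    · exact ContinuousMap.le_def.2 fun x =>
        mul_nonneg (by rcases hcl01 (some k) x with h0 | h0 <;> simp [h0])
          (ContinuousMap.le_def.1 hg0 x)
    · ext x
      show cl (some k) x * g x * ctx.good c x = cl (some k) x * g x
      rcases ctx.good_01 c x with h0 | h0
      · have : ctx.reg c x = 0 := by simp [Ctx.reg, h0]
        have h9 : cl (some k) x = ctx.reg c x * cellFn π₀ k x := rfl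
        simp [h9, this]
      · rw [h0, mul_one]
  have hnone : ∑ o, min (A o) (A none)
      * C.ig (Fr * cl o * γ * C.K (C.off (sc.G i : M)) (cl none * g)) = 0 := by
    refine Finset.sum_eq_zero fun o _ => ?_
    have : C.K (C.off (sc.G i : M)) (0 : C(X, ℝ)) = 0 :=
      map_zero (StepAux.Klin C (C.off (sc.G i : M)))
    rw [hgnone, this, mul_zero, C.ig_zero, mul_zero]
  rw [Fintype.sum_option, hnone, zero_add]
  refine (Finset.sum_le_sum fun k _ => hk k).trans ?_
  simp only [← C.ig_smul, ← C.ig_sum, Ctx.gainI]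
  refine C.ig_mono (ContinuousMap.le_def.2 fun x => ?_)
  simp only [ContinuousMap.sum_apply, ContinuousMap.smul_apply, ContinuousMap.mul_apply,
    smul_eq_mul]
  rcases ctx.reg_cases c x with ⟨-, h2⟩ | ⟨h1, -, h2⟩ | ⟨-, -, h2⟩
  case inr.inl =>
    have hB := ctx.ptBd hP hs hg hl h1
    obtain ⟨-, hgp, -⟩ := ctx.reg_facts hP hs hg h2
    classical
    rw [Finset.sum_eq_single (π₀.proj x)]
    rotate_left
    · intro j _ hj
      have : cl (some j) x = 0 := by
        by_contra hne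
        exact hj (hreg1 j x hne).2.2.symm
      simp [this]
    · simp
    set w := sc.W x with hw
    set p := P.price C s x with hp
    set ξ := xi P.κ w with hξ
    set u := uF P.κ w with hudef
    have hξ0 : 0 < ξ := xi_pos hκ w
    have hu0 : 0 < u := uF_pos hκ w
    have hp0 : 0 < p := P.pmin_pos.trans_le hB.p_ge
    have hclx : cl (some (π₀.proj x)) x = 1 := by
      show ctx.reg c x * cellFn π₀ (π₀.proj x) x = 1
      simp [h2, cellFn_apply]
    have hgx : g x = ξ ^ 2 * u ^ (-(11 / 20) : ℝ) * γ x := by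
      rw [← muF_sq hκ w]
      show P.μc sc x * ctx.reg c x * (P.μc sc x * ctx.reg c x) * γ x = _
      rw [h2, mul_one]
      rfl
    have hee : P.eC C sc x * ξ ≤ 100 * u := by
      refine le_of_eq_of_le ?_ hgp.eF_le
      congr 1
      simp [Prm.eC, Prm.Dc, Prm.nc, Prm.sc, Prm.Γc, eF, hw, hsc, sq]
      ring
    have htk : t (π₀.proj x) ≤ 2 * u ^ (1 / 10 : ℝ) := by
      refine (Real.rpow_le_rpow (hu _).le (hπ₀ (y (π₀.proj x)) x (hy _)) (by norm_num)).trans ?_
      rw [show P.uc sc x = u from rfl, Real.mul_rpow zero_le_two hu0.le]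
      refine mul_le_mul_of_nonneg_right ?_ (Real.rpow_pos_of_pos hu0 _).le
      exact Real.rpow_le_self_of_one_le one_le_two (by norm_num)
    have hγ3 : γ x * ξ ≤ 3 := hB.γ_le i
    have hgain : P.gainC sc x = u ^ (11 / 20 : ℝ) := rfl
    have hpw : u ^ (1 / 10 : ℝ) * (u * u ^ (-(11 / 20) : ℝ)) = u ^ (11 / 20 : ℝ) := by
      nth_rewrite 2 [← Real.rpow_one u]
      rw [rpow_split hu0 (show (1 : ℝ) + -(11 / 20) = 9 / 20 by norm_num),
        rpow_split hu0 (show (1 / 10 : ℝ) + 9 / 20 = 11 / 20 by norm_num)]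
    rw [hclx, one_mul, hgx, h2, mul_one, hgain]
    have he0 : 0 ≤ P.eC C sc x := hB.e0
    have h3 : P.eC C sc x * (ξ ^ 2 * u ^ (-(11 / 20) : ℝ) * γ x)
        ≤ 300 * (u * u ^ (-(11 / 20) : ℝ)) := by
      calc P.eC C sc x * (ξ ^ 2 * u ^ (-(11 / 20) : ℝ) * γ x)
          = (P.eC C sc x * ξ) * (γ x * ξ) * u ^ (-(11 / 20) : ℝ) := by ring
        _ ≤ (100 * u) * 3 * u ^ (-(11 / 20) : ℝ) :=
            mul_le_mul_of_nonneg_right
              (mul_le_mul hee hγ3 (mul_nonneg (hγ0 x) hξ0.le) (by positivity))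
              (Real.rpow_pos_of_pos hu0 _).le
        _ = _ := by ring
    calc 27300000 * t (π₀.proj x) * (p * P.eC C sc x * (ξ ^ 2 * u ^ (-(11 / 20) : ℝ) * γ x))
        ≤ 27300000 * (2 * u ^ (1 / 10 : ℝ)) * (p * (300 * (u * u ^ (-(11 / 20) : ℝ)))) := by
          rw [mul_assoc p]
          refine mul_le_mul (mul_le_mul_of_nonneg_left htk (by norm_num))
            (mul_le_mul_of_nonneg_left h3 hp0.le) ?_ (by positivity)
          exact mul_nonneg hp0.le (mul_nonneg he0 (mul_nonneg (by positivity) (hγ0 x)))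
      _ = 16380000000 * (p * (u ^ (1 / 10 : ℝ) * (u * u ^ (-(11 / 20) : ℝ)))) := by ring
      _ ≤ _ := by
          rw [hpw]
          have : 0 ≤ p * u ^ (11 / 20 : ℝ) := by positivity
          linarith
  all_goals
    have : ∀ j : π₀, cl (some j) x = 0 := fun j => by
      show ctx.reg c x * cellFn π₀ j x = 0
      rw [h2, zero_mul]
    simp [this, h2]

/-- The kernel of one sign against the weight of the charge. -/
theorem eventually_kernel_le (hP : P.Ok C) (hs : StateOk P C s) (hg : P.Good C s)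
    (hl : P.l ^ 3 ≤ P.κ ^ 8) (c : Fin r) (i : Bool) {Fw : C(X, ℝ)} (hF0 : 0 ≤ Fw)
    (hFg : ∀ x, ctx.good c x = 0 → Fw x = 0)
    (hFr : ∀ x, ctx.reg c x = 1 → Fw x ≤ 64 * P.price C s x * xi P.κ ((s.col c).W x) ^ 2
      * uF P.κ ((s.col c).W x) ^ (-(9 / 10) : ℝ))
    (hFb : ∀ x, ctx.good c x = 1 → ctx.reg c x = 0 → Fw x ≤ 64 * P.price C s x
      * (P.μc (s.col c) x * P.μc (s.col c) x) * P.κ ^ 60)
    {ε : ℝ} (hε : 0 < ε) :
    ∀ᶠ π : DiscreteQuotient X in atBot,
      ∑ j : π, C.ig (Fw * (C.K (C.off ((s.col c).G i : M))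
          (P.μc (s.col c) * ctx.good c * cellFn π j)
        * C.K (C.off ((s.col c).G i : M)) (P.μc (s.col c) * ctx.good c * cellFn π j)))
        ≤ 5 * (10 : ℝ) ^ 10 * ctx.gainI c + (1 / P.κ) ^ 8 * P.pmax r * ctx.badI c + ε := by
  set sc := s.col c with hsc
  set μ := P.μc sc with hμ
  set γ := C.Er (sc.G i : M) with hγ
  set z := C.off (sc.G i : M) with hz
  have hκ := P.κ_pos
  have hκ2 : P.κ ≤ 1 / 10000000000 := by linarith [P.κ_le]
  have hG0 : (0 : M) ≤ (sc.G i : M) := (hs.col c).G_nonneg i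
  have hγ0 : ∀ x, 0 ≤ γ x := fun x => ContinuousMap.le_def.1 (C.Er_nonneg hG0) x
  have hTh0 : ∀ x, 0 ≤ Th C (sc.G i) x := fun x =>
    ContinuousMap.le_def.1 (Th_nonneg C hG0) x
  have hregle := fun x => ctx.reg_nonneg c x
  set hh := μ * ctx.good c with hhh
  set hr := μ * ctx.reg c with hhr
  set hb := μ * (ctx.good c - ctx.reg c) with hhb
  set Fb := Fw * (1 - ctx.reg c) with hFbdef
  set Fr := Fw * ctx.reg c with hFrdef
  have hFb0 : 0 ≤ Fb := ContinuousMap.le_def.2 fun x =>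
    mul_nonneg (ContinuousMap.le_def.1 hF0 x) (by simpa using (hregle x).2)
  have hFr0 : 0 ≤ Fr := ContinuousMap.le_def.2 fun x =>
    mul_nonneg (ContinuousMap.le_def.1 hF0 x) (hregle x).1
  have hbad := ctx.ig_bad_le hs c
  set Bd := ctx.badI c with hBd
  set G0 := ctx.gainI c with hG0def
  have hBd0 : 0 ≤ Bd := hbad.1.trans hbad.2.1
  have hG00 : 0 ≤ G0 := C.ig_nonneg (ContinuousMap.le_def.2 fun x =>
    mul_nonneg (mul_nonneg (price_bounds hs x).1 (hregle x).1)
      (Real.rpow_pos_of_pos (uF_pos hκ _) _).le)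
  have hpm0 : 0 ≤ P.pmax r := by
    have := P.pmin_pos
    have := P.S_ge
    unfold Prm.pmax
    positivity
  -- the bad end against every cell
  have hT1 : C.ig (Fb * γ * C.K z (hh * hh * Th C (sc.G i)))
      ≤ G0 + P.pmax r * Bd := by
    have hle := ctx.super_weight hs c i (w := Fb * γ) (f := hh * hh * Th C (sc.G i))
      (K := 6144 * P.κ ^ 58) (by positivity) (fun x => ?_) ?_ ?_
    rotate_left
    · show Fw x * (1 - ctx.reg c x) * γ x ≤ _
      have hNn := Nfn_nonneg hs c x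
      have hR : 0 ≤ 6144 * P.κ ^ 58 * P.Nfn C s c x := by positivity
      rcases ctx.reg_cases c x with ⟨h1, -⟩ | ⟨-, -, h2⟩ | ⟨h1, -, h2⟩
      · simpa [hFg x h1] using hR
      · simpa [h2] using hR
      have hB := ctx.ptBd hP hs hg hl h1
      rw [h2, sub_zero, mul_one]
      set w := sc.W x
      set ξ := xi P.κ w with hξ
      set u := uF P.κ w
      set p := P.price C s x with hp
      have hξ0 : 0 < ξ := xi_pos hκ w
      have hu0 : 0 < u := uF_pos hκ w
      have hu1 : u ≤ 1 := by have := uF_le hκ w; linarith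
      have hp0 : 0 < p := P.pmin_pos.trans_le hB.p_ge
      have hμ2 : μ x * μ x = ξ ^ 2 * u ^ (-(11 / 20) : ℝ) := muF_sq hκ w
      have hpk : u ^ (-(11 / 20) : ℝ) ≤ 1 / P.κ :=
        rpow_neg_le_inv hκ hB.u_ge hu1 (by norm_num) (by norm_num)
      have hγ3 : γ x * ξ ≤ 3 := hB.γ_le i
      have h4 : Fw x * γ x ≤ 192 * P.κ ^ 59 * (p * ξ) := by
        refine (mul_le_mul_of_nonneg_right (hFb x h1 h2) (hγ0 x)).trans ?_
        rw [hμ2]
        calc 64 * p * (ξ ^ 2 * u ^ (-(11 / 20) : ℝ)) * P.κ ^ 60 * γ x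
            = 64 * (p * ξ) * P.κ ^ 60 * (γ x * ξ) * u ^ (-(11 / 20) : ℝ) := by ring
          _ ≤ 64 * (p * ξ) * P.κ ^ 60 * 3 * (1 / P.κ) :=
              mul_le_mul (mul_le_mul_of_nonneg_left hγ3 (by positivity)) hpk
                (Real.rpow_pos_of_pos hu0 _).le (by positivity)
          _ = _ := by field_simp; ring
      refine h4.trans ?_
      have h5 := mul_le_mul_of_nonneg_left hB.n_ge hp0.le
      have h6 := (ctx.Nfn_ge hB).1
      have h7 : p * (P.κ * ξ / 32) ≤ P.Nfn C s c x := h5.trans h6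
      have h8 := mul_le_mul_of_nonneg_left h7 (show (0 : ℝ) ≤ 6144 * P.κ ^ 58 by positivity)
      linarith
    · exact ContinuousMap.le_def.2 fun x => mul_nonneg (mul_self_nonneg _) (hTh0 x)
    · ext x
      show hh x * hh x * Th C (sc.G i) x * ctx.good c x = hh x * hh x * Th C (sc.G i) x
      rcases ctx.good_01 c x with h | h <;> simp [hhh, h]
    refine hle.trans ?_
    have hint : C.ig (P.price C s * P.eC C sc * (hh * hh * Th C (sc.G i)))
        ≤ 720 / P.κ * G0 + 45 / P.κ ^ 2 * P.pmax r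
          * C.ig (sc.act * ctx.bad c * (1 + C.Er (sc.Z i))) := by
      rw [hG0def, Ctx.gainI, ← C.ig_smul, ← C.ig_smul, ← C.ig_add]
      refine C.ig_mono (ContinuousMap.le_def.2 fun x => ?_)
      simp only [ContinuousMap.add_apply, ContinuousMap.smul_apply, ContinuousMap.mul_apply,
        ContinuousMap.one_apply, smul_eq_mul]
      have hEZ := ContinuousMap.le_def.1 (C.Er_nonneg ((hs.col c).Z_nonneg i)) x
      simp only [ContinuousMap.zero_apply, ← hsc] at hEZ
      have ha0 : 0 ≤ sc.act x := by rcases (hs.col c).act_01 x with h | h <;> simp [hsc, h]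
      have hb0 : 0 ≤ ctx.bad c x := by rcases ctx.bad_01 c x with h | h <;> simp [h]
      have hga : 0 ≤ P.gainC sc x := (Real.rpow_pos_of_pos (uF_pos hκ _) _).le
      have hpr := (price_bounds hs x).1
      rcases ctx.reg_cases c x with ⟨h1, h2⟩ | ⟨h1, hb', h2⟩ | ⟨h1, hb', h2⟩
      · simp only [hhh, ContinuousMap.mul_apply, h1, h2, mul_zero, zero_mul, zero_add]
        positivity
      all_goals have hB := ctx.ptBd hP hs hg hl h1
      all_goals
        set w := sc.W x with hw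
        set ξ := xi P.κ w with hξ
        set u := uF P.κ w with hudef
        set p := P.price C s x with hp
        set e := P.eC C sc x with he
        have hξ0 : 0 < ξ := xi_pos hκ w
        have hu0 : 0 < u := uF_pos hκ w
        have hu1 : u ≤ 1 := by have := uF_le hκ w; linarith
        have hp0 : 0 < p := P.pmin_pos.trans_le hB.p_ge
        have hhx : hh x * hh x = ξ ^ 2 * u ^ (-(11 / 20) : ℝ) := by
          rw [← muF_sq hκ w]
          show μ x * ctx.good c x * (μ x * ctx.good c x) = _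
          rw [h1, mul_one]
          rfl
        have hpow := Real.rpow_pos_of_pos hu0 (-(11 / 20) : ℝ)
        have he5 : e * ξ ≤ 5 := hB.e_le
        have he0 : 0 ≤ e := hB.e0
        have hγ3 : γ x * ξ ≤ 3 := hB.γ_le i
      · rw [h2, mul_one, hb', mul_zero, zero_mul, mul_zero, add_zero, hhx]
        have hT : Th C (sc.G i) x ≤ 48 * u * γ x := (ctx.reg_facts hP hs hg h2).2.2.2.2.2 i
        have h4 : e * (ξ ^ 2 * u ^ (-(11 / 20) : ℝ) * Th C (sc.G i) x)
            ≤ 720 * (u * u ^ (-(11 / 20) : ℝ)) := by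
          calc e * (ξ ^ 2 * u ^ (-(11 / 20) : ℝ) * Th C (sc.G i) x)
              ≤ e * (ξ ^ 2 * u ^ (-(11 / 20) : ℝ) * (48 * u * γ x)) := by gcongr
            _ = 48 * ((e * ξ) * (γ x * ξ)) * (u * u ^ (-(11 / 20) : ℝ)) := by ring
            _ ≤ 48 * (5 * 3) * (u * u ^ (-(11 / 20) : ℝ)) := by
                refine mul_le_mul_of_nonneg_right (mul_le_mul_of_nonneg_left ?_ (by norm_num))
                  (by positivity)
                exact mul_le_mul he5 hγ3 (mul_nonneg (hγ0 x) hξ0.le) (by norm_num)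
            _ = _ := by ring
        have h5 : u * u ^ (-(11 / 20) : ℝ) ≤ 1 / P.κ * u ^ (11 / 20 : ℝ) := by
          nth_rewrite 1 [← Real.rpow_one u]
          rw [rpow_split hu0 (show (1 : ℝ) + -(11 / 20) = 9 / 20 by norm_num),
            ← rpow_split hu0 (show (-(1 / 10) : ℝ) + 11 / 20 = 9 / 20 by norm_num)]
          exact mul_le_mul_of_nonneg_right
            (rpow_neg_le_inv hκ hB.u_ge hu1 (by norm_num) (by norm_num))
            (Real.rpow_pos_of_pos hu0 _).le
        calc p * e * (ξ ^ 2 * u ^ (-(11 / 20) : ℝ) * Th C (sc.G i) x)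
            ≤ p * (720 * (1 / P.κ * u ^ (11 / 20 : ℝ))) := by
              rw [mul_assoc]
              exact mul_le_mul_of_nonneg_left (h4.trans (by linarith)) hp0.le
          _ = 720 / P.κ * (p * u ^ (11 / 20 : ℝ)) := by ring
          _ = _ := rfl
      · rw [h2, mul_zero, zero_mul, mul_zero, zero_add, hB.act, hb', mul_one, one_mul, hhx]
        have hT : Th C (sc.G i) x ≤ γ x * (3 + 3 / ξ * C.Er (sc.Z i) x) :=
          Prm.Th_le_crude hP (hs.col c) hB.act i
        have hξ1 : ξ ≤ 1 := xi_le_one P.κ_le hB.W0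
        have hξκ : P.κ ≤ ξ := by have := xi_ge P.κ w; linarith
        have h4 : Th C (sc.G i) x * ξ ^ 2 ≤ 9 * (1 + C.Er (sc.Z i) x) := by
          calc Th C (sc.G i) x * ξ ^ 2 ≤ γ x * (3 + 3 / ξ * C.Er (sc.Z i) x) * ξ ^ 2 :=
                mul_le_mul_of_nonneg_right hT (sq_nonneg ξ)
            _ = (γ x * ξ) * (3 * ξ + 3 * C.Er (sc.Z i) x) := by field_simp
            _ ≤ 3 * (3 * 1 + 3 * C.Er (sc.Z i) x) :=
                mul_le_mul hγ3 (by linarith) (by positivity) (by norm_num)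
            _ = _ := by ring
        have h5 : e ≤ 5 / P.κ :=
          ((le_div_iff₀ hξ0).2 he5).trans (div_le_div_of_nonneg_left (by norm_num) hκ hξκ)
        have hpk : u ^ (-(11 / 20) : ℝ) ≤ 1 / P.κ :=
          rpow_neg_le_inv hκ hB.u_ge hu1 (by norm_num) (by norm_num)
        calc p * e * (ξ ^ 2 * u ^ (-(11 / 20) : ℝ) * Th C (sc.G i) x)
            = p * (e * (Th C (sc.G i) x * ξ ^ 2) * u ^ (-(11 / 20) : ℝ)) := by ring
          _ ≤ P.pmax r * (5 / P.κ * (9 * (1 + C.Er (sc.Z i) x)) * (1 / P.κ)) :=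
              mul_le_mul hB.p_le (mul_le_mul (mul_le_mul h5 h4
                  (mul_nonneg (hTh0 x) (sq_nonneg ξ)) (by positivity)) hpk hpow.le (by positivity))
                (mul_nonneg (mul_nonneg he0 (mul_nonneg (hTh0 x) (sq_nonneg ξ))) hpow.le) hpm0
          _ = _ := by field_simp; ring
    refine (mul_le_mul_of_nonneg_left hint (by positivity)).trans ?_
    have hsm : 6144 * P.κ ^ 58 * (720 / P.κ) ≤ 1 ∧ 6144 * P.κ ^ 58 * (45 / P.κ ^ 2) ≤ 1 := by
      have h56 : P.κ ^ 56 ≤ P.κ ^ 1 := pow_le_pow_of_le_one hκ.le (by linarith) (by norm_num)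
      have h57 : P.κ ^ 57 ≤ P.κ ^ 1 := pow_le_pow_of_le_one hκ.le (by linarith) (by norm_num)
      rw [pow_one] at h56 h57
      constructor
      · rw [show 6144 * P.κ ^ 58 * (720 / P.κ) = 6144 * 720 * P.κ ^ 57 by field_simp]
        linarith
      · rw [show 6144 * P.κ ^ 58 * (45 / P.κ ^ 2) = 6144 * 45 * P.κ ^ 56 by field_simp]
        linarith
    have h1 := mul_le_mul_of_nonneg_right hsm.1 hG00
    have h2 := mul_le_mul hsm.2 (mul_le_mul_of_nonneg_left (hbad.2.2 i) hpm0)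
      (mul_nonneg hpm0 (C.ig_nonneg (ContinuousMap.le_def.2 fun x => ?_))) zero_le_one
    · simp only [← hsc] at h2
      linarith
    · simp only [ContinuousMap.zero_apply, ContinuousMap.mul_apply, ContinuousMap.add_apply,
        ContinuousMap.one_apply]
      have hEZ := ContinuousMap.le_def.1 (C.Er_nonneg ((hs.col c).Z_nonneg i)) x
      simp only [ContinuousMap.zero_apply] at hEZ
      refine mul_nonneg (mul_nonneg ?_ ?_) (by simpa [hsc] using (by linarith : (0:ℝ) ≤ 1 + C.Er ((s.col c).Z i) x))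
      · rcases (hs.col c).act_01 x with h | h <;> simp [hsc, h]
      · rcases ctx.bad_01 c x with h | h <;> simp [h]
  -- a point of small excess against the bad cells
  have hT2 : C.ig (Fr * Th C (sc.G i) * C.K z (hb * hb * γ))
      ≤ (1 / P.κ) ^ 4 * P.pmax r * Bd := by
    have hle := ctx.super_weight hs c i (w := Fr * Th C (sc.G i)) (f := hb * hb * γ)
      (K := 6820000) (by norm_num) (fun x => ?_) ?_ ?_
    rotate_left
    · show Fw x * ctx.reg c x * Th C (sc.G i) x ≤ _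
      have hNn := Nfn_nonneg hs c x
      rcases ctx.reg_cases c x with ⟨-, h2⟩ | ⟨h1, -, h2⟩ | ⟨-, -, h2⟩
      · simpa [h2] using mul_nonneg (by norm_num : (0:ℝ) ≤ 6820000) hNn
      · have hB := ctx.ptBd hP hs hg hl h1
        obtain ⟨-, -, -, hn, -, hT⟩ := ctx.reg_facts hP hs hg h2
        rw [h2, mul_one]
        set w := sc.W x
        set ξ := xi P.κ w with hξ
        set u := uF P.κ w
        set p := P.price C s x with hp
        have hξ0 : 0 < ξ := xi_pos hκ w
        have hu0 : 0 < u := uF_pos hκ w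
        have hu1 : u ≤ 1 := by have := uF_le hκ w; linarith
        have hp0 : 0 < p := P.pmin_pos.trans_le hB.p_ge
        have hpow := Real.rpow_pos_of_pos hu0 (-(9 / 10) : ℝ)
        have hγ3 : γ x * ξ ≤ 3 := hB.γ_le i
        have h10 : u * u ^ (-(9 / 10) : ℝ) ≤ 1 := by
          nth_rewrite 1 [← Real.rpow_one u]
          rw [rpow_split hu0 (show (1 : ℝ) + -(9 / 10) = 1 / 10 by norm_num)]
          exact Real.rpow_le_one hu0.le hu1 (by norm_num)
        have h4 : Fw x * Th C (sc.G i) x ≤ 9216 * (p * ξ) := by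
          calc Fw x * Th C (sc.G i) x
              ≤ (64 * p * ξ ^ 2 * u ^ (-(9 / 10) : ℝ)) * (48 * u * γ x) :=
                mul_le_mul (hFr x h2) (hT i) (hTh0 x) (by positivity)
            _ = 3072 * (p * ξ) * (γ x * ξ) * (u * u ^ (-(9 / 10) : ℝ)) := by ring
            _ ≤ 3072 * (p * ξ) * 3 * 1 := mul_le_mul (mul_le_mul_of_nonneg_left hγ3 (by positivity))
                h10 (by positivity) (by positivity)
            _ = _ := by ring
        have h5 := mul_le_mul_of_nonneg_left hn hp0.le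
        have h6 := (ctx.Nfn_ge hB).1
        simp only [← hp] at h6
        have h7 : p * (ξ / 740) ≤ P.Nfn C s c x := h5.trans h6
        linarith
      · simpa [h2] using mul_nonneg (by norm_num : (0:ℝ) ≤ 6820000) hNn
    · exact ContinuousMap.le_def.2 fun x => mul_nonneg (mul_self_nonneg _) (hγ0 x)
    · ext x
      show hb x * hb x * γ x * ctx.good c x = hb x * hb x * γ x
      rcases ctx.reg_cases c x with ⟨h1, h2⟩ | ⟨h1, -, h2⟩ | ⟨h1, -, h2⟩ <;> simp [hhb, h1, h2]
    refine hle.trans ?_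
    have hint : C.ig (P.price C s * P.eC C sc * (hb * hb * γ))
        ≤ 15 / P.κ * P.pmax r * C.ig (sc.act * ctx.bad c) := by
      rw [← C.ig_smul]
      refine C.ig_mono (ContinuousMap.le_def.2 fun x => ?_)
      simp only [ContinuousMap.smul_apply, ContinuousMap.mul_apply, smul_eq_mul]
      rcases ctx.reg_cases c x with ⟨h1, h2⟩ | ⟨h1, hb', h2⟩ | ⟨h1, hb', h2⟩
      · simp only [hhb, ContinuousMap.mul_apply, ContinuousMap.sub_apply, h1, h2, sub_zero,
          mul_zero, zero_mul]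
        have ha0 : 0 ≤ sc.act x := by rcases (hs.col c).act_01 x with h | h <;> simp [hsc, h]
        have hb0 : 0 ≤ ctx.bad c x := by rcases ctx.bad_01 c x with h | h <;> simp [h]
        positivity
      · simp [hhb, h1, h2, hb']
      · have hB := ctx.ptBd hP hs hg hl h1
        rw [hB.act, hb', mul_one, mul_one]
        set w := sc.W x with hw
        set ξ := xi P.κ w with hξ
        set u := uF P.κ w
        set p := P.price C s x with hp
        set e := P.eC C sc x with he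
        have hξ0 : 0 < ξ := xi_pos hκ w
        have hu0 : 0 < u := uF_pos hκ w
        have hu1 : u ≤ 1 := by have := uF_le hκ w; linarith
        have hp0 : 0 < p := P.pmin_pos.trans_le hB.p_ge
        have he0 : 0 ≤ e := hB.e0
        have hbx : hb x * hb x = ξ ^ 2 * u ^ (-(11 / 20) : ℝ) := by
          rw [← muF_sq hκ w]
          show μ x * (ctx.good c x - ctx.reg c x) * (μ x * (ctx.good c x - ctx.reg c x)) = _
          rw [h1, h2, sub_zero, mul_one]
          rfl
        rw [hbx]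
        have hpk : u ^ (-(11 / 20) : ℝ) ≤ 1 / P.κ :=
          rpow_neg_le_inv hκ hB.u_ge hu1 (by norm_num) (by norm_num)
        calc p * e * (ξ ^ 2 * u ^ (-(11 / 20) : ℝ) * γ x)
            = p * ((e * ξ) * (γ x * ξ) * u ^ (-(11 / 20) : ℝ)) := by ring
          _ ≤ P.pmax r * (5 * 3 * (1 / P.κ)) :=
              mul_le_mul hB.p_le (mul_le_mul (mul_le_mul hB.e_le (hB.γ_le i)
                  (mul_nonneg (hγ0 x) hξ0.le) (by norm_num)) hpk
                  (Real.rpow_pos_of_pos hu0 _).le (by norm_num))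
                (mul_nonneg (mul_nonneg (mul_nonneg he0 hξ0.le) (mul_nonneg (hγ0 x) hξ0.le))
                  (Real.rpow_pos_of_pos hu0 _).le) hpm0
          _ = _ := by ring
    refine (mul_le_mul_of_nonneg_left hint (by norm_num)).trans ?_
    have h4 : 6820000 * (15 / P.κ) ≤ (1 / P.κ) ^ 4 := by
      have h5 : (10000000000 : ℝ) ≤ 1 / P.κ := by rw [le_div_iff₀ hκ]; linarith
      have h6 : (10000000000 : ℝ) ^ 3 ≤ (1 / P.κ) ^ 3 := pow_le_pow_left₀ (by norm_num) h5 3
      rw [show 6820000 * (15 / P.κ) = 102300000 * (1 / P.κ) by ring,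
        show (1 / P.κ) ^ 4 = (1 / P.κ) ^ 3 * (1 / P.κ) by ring]
      gcongr
      linarith
    have h7 := mul_le_mul h4 (mul_le_mul_of_nonneg_left hbad.2.1 hpm0)
      (mul_nonneg hpm0 hbad.1) (by positivity)
    linarith
  have hev3 := ctx.eventually_kernel_reg_le hP hs hg hl c i hFr0
    (fun x => by
      show Fw x * ctx.reg c x * (1 - ctx.reg c x) = 0
      rcases ctx.reg_cases c x with ⟨-, h⟩ | ⟨-, -, h⟩ | ⟨-, -, h⟩ <;> simp [h])
    (fun x hx => by
      show Fw x * ctx.reg c x ≤ _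
      rw [hx, mul_one]; exact hFr x hx)
    (show 0 < ε / 6 by positivity)
  filter_upwards [eventually_sq_K_le_right C hG0 hFb0 hh (show 0 < ε / 6 by positivity),
    eventually_sq_K_le_left C hG0 hFr0 hb (show 0 < ε / 6 by positivity), hev3] with π h1 h2 h3
  have hpt : ∀ j : π, C.ig (Fw * (C.K z (hh * cellFn π j) * C.K z (hh * cellFn π j)))
      ≤ C.ig (Fb * (C.K z (hh * cellFn π j) * C.K z (hh * cellFn π j)))
        + 2 * C.ig (Fr * (C.K z (hr * cellFn π j) * C.K z (hr * cellFn π j)))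
        + 2 * C.ig (Fr * (C.K z (hb * cellFn π j) * C.K z (hb * cellFn π j))) := by
    intro j
    have e : hh * cellFn π j = hr * cellFn π j + hb * cellFn π j := by
      rw [hhh, hhr, hhb]; ring
    rw [← C.ig_smul, ← C.ig_smul, ← C.ig_add, ← C.ig_add, e, StepAux.K_add]
    refine C.ig_mono (ContinuousMap.le_def.2 fun x => ?_)
    simp only [hFbdef, hFrdef, ContinuousMap.add_apply, ContinuousMap.smul_apply,
      ContinuousMap.mul_apply, ContinuousMap.sub_apply, ContinuousMap.one_apply, smul_eq_mul]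
    nlinarith [mul_nonneg (mul_nonneg (ContinuousMap.le_def.1 hF0 x) (hregle x).1)
      (sq_nonneg (C.K z (hr * cellFn π j) x - C.K z (hb * cellFn π j) x))]
  refine (Finset.sum_le_sum fun j _ => hpt j).trans ?_
  rw [Finset.sum_add_distrib, Finset.sum_add_distrib, ← Finset.mul_sum, ← Finset.mul_sum]
  have hk : P.pmax r * Bd + 2 * ((1 / P.κ) ^ 4 * P.pmax r * Bd)
      ≤ (1 / P.κ) ^ 8 * P.pmax r * Bd := by
    have h5 : (10000000000 : ℝ) ≤ 1 / P.κ := by rw [le_div_iff₀ hκ]; linarith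
    have h6 : (10000000000 : ℝ) ^ 4 ≤ (1 / P.κ) ^ 4 := pow_le_pow_left₀ (by norm_num) h5 4
    have h7 : 1 + 2 * (1 / P.κ) ^ 4 ≤ (1 / P.κ) ^ 8 := by
      rw [show (1 / P.κ) ^ 8 = (1 / P.κ) ^ 4 * (1 / P.κ) ^ 4 by ring]
      have := mul_le_mul_of_nonneg_right h6 (show (0 : ℝ) ≤ (1 / P.κ) ^ 4 by positivity)
      linarith
    have := mul_le_mul_of_nonneg_right h7 (mul_nonneg hpm0 hBd0)
    linarith
  linarith

/-- The cross term of one sign. -/
theorem eventually_cross_colour_le (hP : P.Ok C) (hs : StateOk P C s) (hg : P.Good C s)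
    (hl : P.l ^ 3 ≤ P.κ ^ 8) (F : Fin r → Fam X) (B : ℝ)
    (hd : (ctx.data F B).OkW) (hFN : ∀ c, (F c).FromNrm C) (c : Fin r) (m : ℕ) (i : Bool) {ω : ℝ}
    (hω : 1 ≤ ω) {ε : ℝ} (hε : 0 < ε) :
    ∀ᶠ π : DiscreteQuotient X in atBot,
      ∑ c', ∑ j : π, C.ig ((P.price C s * (s.col c).act * ((1 / 2 : ℝ) • P.s1c (s.col c))
            + (2 : ℝ) • (P.Nfn C s c * P.γ C (s.col c) i))
          * ((P.μc (s.col c) * (ctx.data F B).PW m (unitVec π c' j) c)
            * C.K (C.off ((s.col c).G i : M))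
              (P.μc (s.col c) * (ctx.data F B).PW m (unitVec π c' j) c)))
        ≤ ω * C.form (C.r (P.price C s * ctx.reg c * P.chargeC (s.col c))) 1
              (C.mulS (ctx.good c)) ((ctx.data F B).HW C hFN c m)
          + ω * (1 / P.κ) ^ 60 * P.pmax r * ctx.badI c
          + (5 * (10 : ℝ) ^ 10 * ctx.gainI c + (1 / P.κ) ^ 8 * P.pmax r * ctx.badI c) / (4 * ω)
          + ε := by
  set sc := s.col c with hsc
  set μ := P.μc sc with hμ
  set γ := P.γ C sc i with hγ
  have hκ := P.κ_pos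
  have hκ2 : P.κ ≤ 1 / 10000000000 := by linarith [P.κ_le]
  set co := P.price C s * sc.act * ((1 / 2 : ℝ) • P.s1c sc) + (2 : ℝ) • (P.Nfn C s c * γ) with hco
  set f := ctx.good c * μ * co with hf
  set kb : ℝ := (1 / P.κ) ^ 60 with hkb
  have hkb0 : 0 < kb := by positivity
  set cw : C(X, ℝ) := P.pc C s * (ctx.reg c * P.chargeC sc + kb • (1 - ctx.reg c)) with hcw
  have hcwpos : ∀ x, 0 < cw x := by
    intro x
    simp only [hcw, ContinuousMap.mul_apply, ContinuousMap.add_apply, ContinuousMap.smul_apply,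
      ContinuousMap.sub_apply, ContinuousMap.one_apply, smul_eq_mul]
    refine mul_pos (P.pc_pos C s x) ?_
    have hch : 0 < P.chargeC sc x := Real.rpow_pos_of_pos (uF_pos hκ _) _
    rcases ctx.reg_cases c x with ⟨-, h⟩ | ⟨-, -, h⟩ | ⟨-, -, h⟩ <;> simp [h, hkb0, hch]
  set icw : C(X, ℝ) := ⟨fun x => (cw x)⁻¹,
    (map_continuous cw).inv₀ fun x => (hcwpos x).ne'⟩ with hicw
  have hicw1 : icw * cw = 1 := by ext x; simp [hicw, (hcwpos x).ne']
  have hμ0 : 0 ≤ μ := ContinuousMap.le_def.2 fun x => (muF_pos hκ _).le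
  have hz := C.off_isSelfAdjoint (IsSelfAdjoint.of_nonneg ((hs.col c).G_nonneg i))
  set A := 5 * (10 : ℝ) ^ 10 * ctx.gainI c + (1 / P.κ) ^ 8 * P.pmax r * ctx.badI c with hA
  have hco8 : ∀ x, ctx.good c x = 1 → co x ^ 2 ≤ 64 * P.price C s x ^ 2 := by
    intro x hx
    have hB := ctx.ptBd hP hs hg hl hx
    set p := P.price C s x with hp
    set w := sc.W x
    set ξ := xi P.κ w
    have hξ0 : 0 < ξ := xi_pos hκ w
    have hξk : 100000000 * P.κ ≤ ξ := xi_ge _ w
    have hp0 : 0 < p := P.pmin_pos.trans_le hB.p_ge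
    have hγ3 : γ x * ξ ≤ 3 := hB.γ_le i
    have hγ0 : 0 < γ x := hB.γ_pos i
    have hW1 : w ≤ 1 - 100000000 * P.κ := hB.W1
    have hs1 := abs_s1_le hκ P.κ_le hB.W0 (by linarith)
    obtain ⟨-, hN⟩ := ctx.Nfn_ge hB
    have hN0 := Nfn_nonneg hs c x
    have h1 : P.Nfn C s c x * γ x ≤ 3 * p + P.κ ^ 4 * p := by
      refine (mul_le_mul_of_nonneg_right hN hγ0.le).trans ?_
      rw [add_mul]
      refine add_le_add ?_ ?_
      · calc p * P.nc sc x * γ x ≤ p * ξ * γ x := by gcongr; exact hB.n_le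
          _ = p * (γ x * ξ) := by ring
          _ ≤ p * 3 := mul_le_mul_of_nonneg_left hγ3 hp0.le
          _ = 3 * p := by ring
      · have h2 : γ x * P.κ ≤ 1 := by
          nlinarith [mul_le_mul_of_nonneg_left hξk hγ0.le]
        calc P.κ ^ 6 * p * γ x = P.κ ^ 5 * p * (γ x * P.κ) := by ring
          _ ≤ P.κ ^ 5 * p * 1 := mul_le_mul_of_nonneg_left h2 (by positivity)
          _ ≤ P.κ ^ 4 * p := by
              rw [mul_one]
              exact mul_le_mul_of_nonneg_right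
                (pow_le_pow_of_le_one hκ.le (by linarith) (by norm_num)) hp0.le
    have h3 : P.κ ^ 4 ≤ P.κ ^ 1 := pow_le_pow_of_le_one hκ.le (by linarith) (by norm_num)
    rw [pow_one] at h3
    have h4 : |co x| ≤ 8 * p := by
      have e : co x = p * (s1 P.κ w / 2) + 2 * (P.Nfn C s c x * γ x) := by
        simp [hco, hsc, hp, hB.act, Prm.s1c, w]
        ring
      rw [e]
      refine (abs_add_le _ _).trans ?_
      rw [abs_mul, abs_of_pos hp0, abs_div, abs_two, abs_mul, abs_two,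
        abs_of_nonneg (mul_nonneg hN0 hγ0.le)]
      have h5 := mul_le_mul_of_nonneg_left hs1 hp0.le
      have h6 := mul_le_mul_of_nonneg_right h3 hp0.le
      have h7 := mul_le_mul_of_nonneg_right (hκ2.trans (by norm_num : _ ≤ (1 / 2 : ℝ))) hp0.le
      have h5' : p * |s1 P.κ w| ≤ p * 2 := h5
      linarith
    calc co x ^ 2 = |co x| ^ 2 := (sq_abs _).symm
      _ ≤ (8 * p) ^ 2 := pow_le_pow_left₀ (abs_nonneg _) h4 2
      _ = 64 * p ^ 2 := by ring
  have hcwval : ∀ x, ctx.good c x = 1 → cw x = P.price C s x *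
      (ctx.reg c x * chargeF P.κ (sc.W x) + kb * (1 - ctx.reg c x)) := fun x hx => by
    simp only [hcw, ContinuousMap.mul_apply, ContinuousMap.add_apply, ContinuousMap.smul_apply,
      ContinuousMap.sub_apply, ContinuousMap.one_apply, smul_eq_mul,
      (ctx.ptBd hP hs hg hl hx).pc_eq]
    rfl
  have hker := ctx.eventually_kernel_le hP hs hg hl c i (Fw := f * f * icw)
    (ContinuousMap.le_def.2 fun x => mul_nonneg (mul_self_nonneg _)
      (inv_nonneg.2 (hcwpos x).le))
    (fun x hx => by simp [hf, hx])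
    (fun x hx => by
      obtain ⟨h1, -⟩ := ctx.reg_facts hP hs hg hx
      show f x * f x * (cw x)⁻¹ ≤ _
      rw [hcwval x h1, hx, one_mul, sub_self, mul_zero, add_zero]
      have hp0 : 0 < P.price C s x := P.pmin_pos.trans_le (ctx.ptBd hP hs hg hl h1).p_ge
      set w := sc.W x
      have hu0 : 0 < uF P.κ w := uF_pos hκ w
      unfold chargeF
      rw [← div_eq_mul_inv, div_le_iff₀ (mul_pos hp0 (Real.rpow_pos_of_pos hu0 _))]
      have hfx : f x * f x = muF P.κ w * muF P.κ w * co x ^ 2 := by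
        show ctx.good c x * μ x * co x * (ctx.good c x * μ x * co x) = _
        rw [h1]
        show 1 * muF P.κ w * co x * (1 * muF P.κ w * co x) = _
        ring
      have hpw := rpow_split hu0 (show (-(9 / 10) : ℝ) + 7 / 20 = -(11 / 20) by norm_num)
      have h4 := mul_le_mul_of_nonneg_left (hco8 x h1)
        (mul_nonneg (sq_nonneg (xi P.κ w)) (Real.rpow_pos_of_pos hu0 (-(11 / 20) : ℝ)).le)
      rw [hfx, muF_sq hκ w]
      refine h4.trans (le_of_eq ?_)
      rw [← hpw]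
      ring)
    (fun x hx hr => by
      show f x * f x * (cw x)⁻¹ ≤ _
      rw [hcwval x hx, hr, zero_mul, zero_add, sub_zero, mul_one]
      have hp0 : 0 < P.price C s x := P.pmin_pos.trans_le (ctx.ptBd hP hs hg hl hx).p_ge
      rw [← div_eq_mul_inv, div_le_iff₀ (mul_pos hp0 hkb0)]
      have hfx : f x * f x = μ x * μ x * co x ^ 2 := by
        show ctx.good c x * μ x * co x * (ctx.good c x * μ x * co x) = _
        rw [hx]; ring
      rw [hfx]
      refine (mul_le_mul_of_nonneg_left (hco8 x hx) (mul_self_nonneg _)).trans (le_of_eq ?_)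
      rw [hkb]
      field_simp
      all_goals rfl)
    (show 0 < ε / 2 * (4 * ω) by positivity)
  -- the form of the weight
  set q := P.price C s * ctx.reg c * P.chargeC sc with hq
  clear_value kb
  have hchg : chg (d := ctx.data F B) hFN c m cw
      ≤ chg (d := ctx.data F B) hFN c m q + kb * P.pmax r * ctx.badI c := by
    rw [show cw = q + (cw - q) by abel, chg_add hFN hd]
    refine add_le_add le_rfl ?_
    have hrest : ∀ x, 0 ≤ (cw - q) x ∧
        (cw - q) x * ctx.good c x ≤ kb * P.pmax r * (sc.act * ctx.bad c) x := by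
      intro x
      have hpc := (P.pc_pos C s x).le
      have hpm : P.pc C s x ≤ P.pmax r := (price_bounds hs x).2.2
      have hpm0 := hpc.trans hpm
      have ha0 : 0 ≤ sc.act x := by rcases (hs.col c).act_01 x with h | h <;> simp [hsc, h]
      have hb0 : 0 ≤ ctx.bad c x := by rcases ctx.bad_01 c x with h | h <;> simp [h]
      simp only [hcw, hq, ContinuousMap.sub_apply, ContinuousMap.mul_apply,
        ContinuousMap.add_apply, ContinuousMap.smul_apply, ContinuousMap.one_apply, smul_eq_mul]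
      rcases ctx.reg_cases c x with ⟨h1, h2⟩ | ⟨h1, hb', h2⟩ | ⟨h1, hb', h2⟩
      · simp [h1, h2]
        constructor <;> positivity
      · have hpe := (ctx.ptBd hP hs hg hl h1).pc_eq
        simp [h1, h2, hb', hpe]
      · have hact := (ctx.ptBd hP hs hg hl h1).act
        simp [h1, h2, hb', hsc, hact]
        constructor
        · positivity
        · rw [mul_comm kb]; gcongr
    refine (chg_le_ig hFN hd c m (ContinuousMap.le_def.2 fun x => (hrest x).1)).trans ?_
    refine (C.ig_mono (g := (kb * P.pmax r) • (sc.act * ctx.bad c))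
      (ContinuousMap.le_def.2 fun x => (hrest x).2)).trans ?_
    rw [C.ig_smul]
    have hpm0 : 0 ≤ P.pmax r := by
      have := P.pmin_pos
      have := P.S_ge
      unfold Prm.pmax
      positivity
    exact mul_le_mul_of_nonneg_left (ctx.ig_bad_le hs c).2.1 (by positivity)
  have hev := eventually_cross_le C (d := ctx.data F B) hFN hd c m hz (C.Er_off _) f μ hμ0
    (cw := cw) (icw := icw) hcwpos hicw1 (show 0 < ω by linarith)
    (A := A + ε / 2 * (4 * ω)) hker (show 0 < ε / 2 by positivity)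
  filter_upwards [hev] with π hπ
  have e : ∀ v : Fin r → C(X, ℝ), co * (μ * (ctx.data F B).PW m v c
      * C.K (C.off (sc.G i : M)) (μ * (ctx.data F B).PW m v c))
      = f * ((ctx.data F B).PW m v c
        * C.K (C.off (sc.G i : M)) (μ * (ctx.data F B).PW m v c)) := fun v => by
    conv_lhs => arg 2; arg 1; arg 2; rw [← WData.PW_supp hd m v c]
    show co * (μ * ((ctx.data F B).PW m v c * ctx.good c) * _) = _
    rw [hf]; ring
  simp only [e]
  refine (le_abs_self _).trans (hπ.trans ?_)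
  rw [add_div, mul_div_cancel_right₀ _ (by positivity : (4 * ω) ≠ 0)]
  have h1 := mul_le_mul_of_nonneg_left hchg (show (0 : ℝ) ≤ ω by linarith)
  simp only [chg] at h1
  rw [show (ctx.data F B).act c = ctx.good c from rfl] at h1
  show ω * C.form (C.r cw) 1 (C.mulS (ctx.good c)) _ + _ + _ ≤ _
  nlinarith

end Ctx

theorem Ctx.eventually_colour_le (hP : P.Ok C) (hs : StateOk P C s) (hg : P.Good C s)
    (ctx : Ctx P C s δ) (hl : P.l ^ 3 ≤ P.κ ^ 8) (F : Fin r → Fam X) (B : ℝ)
    (hd : (ctx.data F B).OkW) (hFN : ∀ c, (F c).FromNrm C) (c : Fin r) (m : ℕ) {ω : ℝ}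
    (hω : 1 ≤ ω) {ε : ℝ} (hε : 0 < ε) :
    ∀ᶠ π : DiscreteQuotient X in atBot,
      ∑ c', ∑ j : π, P.quadC C s c (P.μc (s.col c) * (ctx.data F B).PW m (unitVec π c' j) c)
        ≤ -(1 / 4 - (10 : ℝ) ^ 14 / ω)
              * C.ig (P.price C s * ctx.reg c * P.gainC (s.col c))
          + (10 : ℝ) ^ 14 * ω * C.form (C.r (P.price C s * ctx.reg c * P.chargeC (s.col c))) 1
              (C.mulS (ctx.good c)) ((ctx.data F B).HW C hFN c m)
          + ω * (1 / P.κ) ^ 80 * P.pmax r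
              * (C.ig ((s.col c).act * ctx.bad c) + ∑ i, C.tr ((s.col c).Z i))
          + ε := by
  have hκ := P.κ_pos
  have hκ2 : P.κ ≤ 1 / 10000000000 := by linarith [P.κ_le]
  set sN : C(X, ℝ) := ⟨fun x => √(P.Nfn C s c x), by fun_prop⟩ with hsN
  have hsN2 : sN * sN = P.Nfn C s c := by
    ext x; exact Real.mul_self_sqrt (Ctx.Nfn_nonneg hs c x)
  filter_upwards [ctx.eventually_diag_loss_le hP hs hg hl F B hd hFN c m sN hsN2
      (show 0 < ε / 3 by positivity),
    ctx.eventually_cross_colour_le hP hs hg hl F B hd hFN c m true hω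
      (show 0 < ε / 3 by positivity),
    ctx.eventually_cross_colour_le hP hs hg hl F B hd hFN c m false hω
      (show 0 < ε / 3 by positivity)] with π h1 h2 h3
  simp only [quadC_eq hs c _ sN hsN2, Fintype.sum_bool, Finset.sum_add_distrib] at h1 h2 h3 ⊢
  set G0 := ctx.gainI c with hG0
  set Bd := ctx.badI c with hBd
  set Φ := C.form (C.r (P.price C s * ctx.reg c * P.chargeC (s.col c))) 1
    (C.mulS (ctx.good c)) ((ctx.data F B).HW C hFN c m)
  have hG : C.ig (P.price C s * ctx.reg c * P.gainC (s.col c)) = G0 := rfl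
  have hB : C.ig ((s.col c).act * ctx.bad c)
      + (C.tr ((s.col c).Z true) + C.tr ((s.col c).Z false)) = Bd := by
    rw [hBd, Ctx.badI, Fintype.sum_bool]
  rw [hG, hB]
  have hregnn : ∀ x, 0 ≤ (P.price C s * ctx.reg c) x := fun x =>
    mul_nonneg (price_bounds hs x).1 (ctx.reg_nonneg c x).1
  have hG00 : 0 ≤ G0 := C.ig_nonneg (ContinuousMap.le_def.2 fun x =>
    mul_nonneg (hregnn x) (Real.rpow_pos_of_pos (uF_pos hκ _) _).le)
  have hΦ0 : 0 ≤ Φ := chg_nonneg hFN hd c m (ContinuousMap.le_def.2 fun x =>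
    mul_nonneg (hregnn x) (Real.rpow_pos_of_pos (uF_pos hκ _) _).le)
  have hpm : 0 ≤ P.pmax r := by
    have := P.pmin_pos
    have := P.S_ge
    unfold Prm.pmax
    positivity
  have hBd0 : 0 ≤ Bd := (ctx.ig_bad_le hs c).1.trans (ctx.ig_bad_le hs c).2.1
  have hω0 : 0 < ω := by linarith
  have t1 : (3000 + 2 * ω) * Φ ≤ (10 : ℝ) ^ 14 * ω * Φ :=
    mul_le_mul_of_nonneg_right (by linarith) hΦ0
  have t2 : -(3 / 8) * G0 + 2 * (5 * (10 : ℝ) ^ 10 * G0) / (4 * ω)
      ≤ -(1 / 4 - (10 : ℝ) ^ 14 / ω) * G0 := by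
    have : 0 ≤ G0 / ω := by positivity
    have e1 : 2 * (5 * (10 : ℝ) ^ 10 * G0) / (4 * ω) = 25000000000 * (G0 / ω) := by
      field_simp; ring
    have e2 : -(1 / 4 - (10 : ℝ) ^ 14 / ω) * G0 = -(1 / 4) * G0 + 100000000000000 * (G0 / ω) := by
      field_simp; ring
    rw [e1, e2]
    linarith
  have t3 : 300 / P.κ + 2 * (ω * (1 / P.κ) ^ 60) + 2 * (1 / P.κ) ^ 8 / (4 * ω)
      ≤ ω * (1 / P.κ) ^ 80 := by
    have hk : (10000000000 : ℝ) ≤ 1 / P.κ := by rw [le_div_iff₀ hκ]; linarith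
    have hk1 : (1 : ℝ) ≤ 1 / P.κ := by linarith
    set K := 1 / P.κ with hKdef
    have hk60 : 0 ≤ K ^ 60 := by positivity
    have h20 : (1000 : ℝ) ≤ K ^ 20 := le_trans (by linarith) (le_self_pow₀ hk1 (by norm_num))
    have hb : 1000 * K ^ 60 ≤ K ^ 80 := by
      rw [show K ^ 80 = K ^ 20 * K ^ 60 by ring]
      exact mul_le_mul_of_nonneg_right h20 hk60
    have ha : K ≤ K ^ 60 := le_self_pow₀ hk1 (by norm_num)
    have h8 : K ^ 8 ≤ K ^ 60 := pow_le_pow_right₀ hk1 (by norm_num)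
    have hdiv : 2 * K ^ 8 / (4 * ω) ≤ 2 * K ^ 8 := div_le_self (by positivity) (by linarith)
    rw [show 300 / P.κ = 300 * K by rw [hKdef]; ring]
    have h9 := mul_le_mul_of_nonneg_left hb hω0.le
    have h10 := mul_le_mul_of_nonneg_right hω hk60
    linarith
  have t3' := mul_le_mul_of_nonneg_right t3 (mul_nonneg hpm hBd0)
  have e3 : 2 * (5 * (10 : ℝ) ^ 10 * G0 + (1 / P.κ) ^ 8 * P.pmax r * Bd) / (4 * ω)
      = 2 * (5 * (10 : ℝ) ^ 10 * G0) / (4 * ω)
        + 2 * (1 / P.κ) ^ 8 / (4 * ω) * (P.pmax r * Bd) := by ring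
  have hs123 := add_le_add h1 (add_le_add h2 h3)
  refine le_trans (le_of_eq_of_le ?_ hs123) (by linear_combination t1 + t2 + t3' + e3)
  ring

end Vale.Agent.P078.Quad
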