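import Vale.Agent.P078.Quad.Step.Setup
import Vale.Agent.P078.Quad.Move
import Vale.Agent.P078.Quad.GoodSet

/-! The exact points, the facts on them and the validity of the linearised budget. -/

namespace Vale.Agent.P078.Quad

set_option linter.unusedSectionVars false

open Filter Topology ComplexOrder
open Vale.Agent.P078.Tracial Vale.Agent.P078.AllMasa

variable {M X : Type} [CStarAlgebra M] [PartialOrder M] [StarOrderedRing M]
variable [TopologicalSpace X] [CompactSpace X] [T2Space X] [TotallyDisconnectedSpace X]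
variable {P : Prm M} {C : SCore M X} {r : ℕ}

/-- The range of the price. -/
theorem price_bounds {s : Config M X r} (hs : StateOk P C s) (x : X) :
    0 ≤ P.price C s x ∧ P.price C s x ≤ 2 * √P.l * (P.S + r) ∧ P.pc C s x ≤ P.pmax r := by
  have hb : ∀ c, -1 ≤ P.bc C (s.col c) x := fun c => by
    have hb1 : P.b1 ≤ 1 := by
      unfold Prm.b1
      linarith [P.κ_le, P.κ_pos]
    simp only [Prm.bc, ContinuousMap.mul_apply, ContinuousMap.sub_apply, ContinuousMap.const_apply]
    rcases (hs.col c).act_01 x with h | h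
    · rw [h]; norm_num
    · have := (hs.col c).inv x h
      rw [h, one_mul]; linarith
  have hsum : -(r : ℝ) ≤ (∑ c, P.bc C (s.col c)) x := by
    rw [ContinuousMap.sum_apply]
    refine le_trans (le_of_eq ?_) (Finset.sum_le_sum fun c _ => hb c)
    simp
  have hS : 0 ≤ P.S := zero_le_one.trans P.S_ge
  have hr : (0 : ℝ) ≤ r := Nat.cast_nonneg r
  have hsh : 0 ≤ P.short C s x ∧ P.short C s x ≤ P.S + r := by
    simp only [Prm.short, ContinuousMap.coe_mk]
    exact ⟨le_max_right _ _, max_le (by linarith) (by linarith)⟩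
  have h2 : 0 ≤ P.price C s x ∧ P.price C s x ≤ 2 * √P.l * (P.S + r) := by
    have := Real.sqrt_nonneg P.l
    simp only [Prm.price, ContinuousMap.smul_apply, ContinuousMap.mul_apply, smul_eq_mul]
    rcases hs.U_01 x with h | h <;> rw [h]
    · simp only [zero_mul, mul_zero]; exact ⟨le_rfl, by positivity⟩
    · rw [one_mul]
      exact ⟨mul_nonneg (by positivity) hsh.1, mul_le_mul_of_nonneg_left hsh.2 (by positivity)⟩
  refine ⟨h2.1, h2.2, ?_⟩
  show max (P.price C s x) P.pmin ≤ _
  unfold Prm.pmax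
  refine max_le (by linarith [P.pmin_pos]) ?_
  have := Real.sqrt_nonneg P.l
  have : 0 ≤ 2 * √P.l * (P.S + r) := by positivity
  linarith

/-- At an approximate minimiser the exact points are all but a small part. -/
theorem exists_ctx (hP : P.Ok C) (r : ℕ) {δ : ℝ} (hδ : 0 < δ) :
    ∃ ζ > 0, ∀ s : Config M X r, StateOk P C s → P.Good C s → P.IsMin C s ζ →
      Nonempty (Ctx P C s δ) := by
  classical
  have hl := P.l_pos
  have hε : 0 < δ * P.l / 8 := by positivity
  obtain ⟨ζ, hζ, hsup⟩ := exists_super hP r hε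
  refine ⟨ζ, hζ, fun s hs hg hmin => ?_⟩
  have hNn : ∀ c x, 0 ≤ P.Nfn C s c x ∧
      ((s.col c).act x = 1 → P.price C s x * P.nc (s.col c) x ≤ P.Nfn C s c x) := fun c x => by
    have hp := (price_bounds hs x).1
    have hn : 0 ≤ P.nc (s.col c) x := by
      have := sF_nonneg P.κ_pos P.κ_le ((hs.col c).W_mem x).1 ((hs.col c).W_mem x).2
      simp only [Prm.nc, Prm.sc, ContinuousMap.smul_apply, ContinuousMap.coe_mk, smul_eq_mul]
      positivity
    have := P.lG_pos
    simp only [Prm.Nfn, ContinuousMap.add_apply, ContinuousMap.mul_apply,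
      ContinuousMap.const_apply]
    rcases (hs.col c).act_01 x with h | h
    · exact ⟨by simp [h]; linarith, fun h' => absurd (h.symm.trans h') zero_ne_one⟩
    · rw [h, mul_one]
      exact ⟨by positivity, fun _ => by linarith⟩
  have htr : ∀ c i (f : C(X, ℝ)),
      C.tr (C.r (P.Nfn C s c) * ((s.col c).G i : M) * C.r f * ((s.col c).G i : M))
        = C.ig (P.Nfn C s c * C.K ((s.col c).G i : M) f) := fun c i f => by
    have hG := IsSelfAdjoint.of_nonneg ((hs.col c).G_nonneg i)
    rw [show C.r (P.Nfn C s c) * ((s.col c).G i : M) * C.r f * ((s.col c).G i : M)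
        = C.r (P.Nfn C s c) * (((s.col c).G i : M) * C.r f * star ((s.col c).G i : M)) by
      rw [hG.star_eq]; simp only [mul_assoc], C.tr_r_mul _ ((C.r_isSelfAdjoint f).conjugate _)]
    rfl
  have hgs : ∀ c, ∃ good : C(X, ℝ), (∀ x, good x = 0 ∨ good x = 1) ∧
      (∀ x, good x ≤ (s.col c).act x) ∧ C.ig ((s.col c).act - good) ≤ δ ∧
      (∀ f : C(X, ℝ), 0 ≤ f → f * good = f →
        (∑ i, C.ig (P.Nfn C s c * C.K (C.off ((s.col c).G i : M)) f)) + P.l / 2 * C.ig f
          ≤ C.ig (P.price C s * P.eC C (s.col c) * f)) := by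
    intro c
    obtain ⟨good, h1, h2, h3, h4⟩ := exists_good_set_sum C
      (fun i : Bool => C.r (P.Nfn C s c) * ((s.col c).G i : M))
      (fun i : Bool => ((s.col c).G i : M)) (P.price C s * P.Dc C (s.col c) - P.l • 1) 1
      (hs.col c).act_01 hε.le (half_pos hl) (fun x => le_rfl) (fun f hf => by
        have := hsup s hs hg hmin c f hf
        rw [sub_mul, smul_mul_assoc, one_mul, C.ig_sub, C.ig_smul]
        linarith)
    refine ⟨good, h1, h2, h4.trans (le_of_eq (by field_simp; ring)), fun f hf hfg => ?_⟩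
    have h5 := h3 f hf hfg
    rw [add_mul, sub_mul, smul_mul_assoc, smul_mul_assoc, one_mul, C.ig_add, C.ig_sub, C.ig_smul,
      C.ig_smul] at h5
    simp only [htr, StepAux.K_split (IsSelfAdjoint.of_nonneg ((hs.col c).G_nonneg _)), mul_add,
      C.ig_add, Finset.sum_add_distrib] at h5
    have h6 : C.ig (P.price C s * P.Dc C (s.col c) * f)
        ≤ C.ig (P.price C s * P.eC C (s.col c) * f)
          + ∑ i, C.ig (P.Nfn C s c
            * (C.Er ((s.col c).G i : M) * C.Er ((s.col c).G i : M) * f)) := by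
      rw [← C.ig_sum, ← C.ig_add]
      refine C.ig_mono (ContinuousMap.le_def.2 fun x => ?_)
      simp only [Prm.eC, Prm.γ, ContinuousMap.add_apply, ContinuousMap.mul_apply,
        ContinuousMap.sub_apply, Fintype.sum_bool]
      have hfx := ContinuousMap.le_def.1 hf x
      simp only [ContinuousMap.zero_apply] at hfx
      have hx := congrArg (fun k : C(X, ℝ) => k x) hfg
      simp only [ContinuousMap.mul_apply] at hx
      rcases (hs.col c).act_01 x with ha | ha
      · have hg0 : good x = 0 := le_antisymm (ha ▸ h2 x) (by rcases h1 x with h | h <;> simp [h])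
        rw [hg0, mul_zero] at hx
        rw [← hx]; simp
      · have hN := mul_le_mul_of_nonneg_right ((hNn c x).2 ha)
          (mul_nonneg (add_nonneg (mul_self_nonneg (C.Er ((s.col c).G true : M) x))
            (mul_self_nonneg (C.Er ((s.col c).G false : M) x))) hfx)
        linear_combination hN
    linarith
  choose good h1 h2 h3 h4 using hgs
  let mx : Fin r → C(X, ℝ) := fun c =>
    ⟨fun x => max (P.excess C (s.col c) true x) (P.excess C (s.col c) false x), by fun_prop⟩
  have hV : ∀ c, ∃ V : Set X, IsClopen V ∧ {x | P.κ / 20 ≤ mx c x} ⊆ V ∧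
      V ⊆ {x | P.κ / 40 < mx c x} := fun c =>
    exists_clopen_of_closed_subset_open (isClosed_le continuous_const (map_continuous _))
      (isOpen_lt continuous_const (map_continuous _)) fun x hx => by
        simp only [Set.mem_ofPred_eq] at hx ⊢
        linarith [P.κ_pos]
  choose V hV hVge hVle using hV
  refine ⟨⟨good, fun c => ind (V c) (hV c), h1, fun c x => ?_, h2, fun c x _ hb i => ?_,
    fun c => ?_, h3, fun c x hx => ?_, h4⟩⟩
  · by_cases h : x ∈ V c <;> simp [ind_apply, h]
  · have hnV : x ∉ V c := fun h => by simp [ind_apply, h] at hb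
    have hle : mx c x < P.κ / 20 := not_le.1 fun h => hnV (hVge c h)
    simp only [mx, ContinuousMap.coe_mk, max_lt_iff] at hle
    cases i
    · exact hle.2.le
    · exact hle.1.le
  · have hZ : ∀ i, IsSelfAdjoint ((s.col c).Z i) := fun i =>
      IsSelfAdjoint.of_nonneg ((hs.col c).Z_nonneg i)
    simp only [← C.ig_Er (hZ _), ← C.ig_sum, ← C.ig_smul]
    refine C.ig_mono (ContinuousMap.le_def.2 fun x => ?_)
    have hκ := P.κ_pos
    have hE : ∀ i, 0 ≤ C.Er ((s.col c).Z i) x := fun i =>
      ContinuousMap.le_def.1 (C.Er_nonneg ((hs.col c).Z_nonneg i)) x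
    have h0 : (0 : ℝ) ≤ 40 / P.κ * (C.Er ((s.col c).Z true) x + C.Er ((s.col c).Z false) x) := by
      have := hE true; have := hE false; positivity
    simp only [ContinuousMap.mul_apply, ContinuousMap.smul_apply, ContinuousMap.add_apply,
      Fintype.sum_bool, smul_eq_mul]
    rcases (hs.col c).act_01 x with ha | ha
    · rw [ha, zero_mul]; exact h0
    by_cases h : x ∈ V c
    · have hm : P.κ / 40 < mx c x := hVle c h
      obtain ⟨-, -, -, -, -, -, hex⟩ := Prm.act_facts hP (hs.col c) ha
      simp only [mx, ContinuousMap.coe_mk, lt_max_iff] at hm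
      have hs2 : P.κ / 40 ≤ C.Er ((s.col c).Z true) x + C.Er ((s.col c).Z false) x := by
        rcases hm with hm | hm
        · linarith [hex true, hE false]
        · linarith [hex false, hE true]
      simp only [ha, ind_apply, h, if_pos, mul_one]
      rw [div_mul_eq_mul_div, le_div_iff₀ hκ]
      linarith
    · simp only [ha, ind_apply, h, if_false, one_mul]
      exact h0
  · set q : C(X, ℝ) := P.price C s * P.eC C (s.col c) - (P.l / 2) • 1 with hq
    set nq : C(X, ℝ) := ⟨fun x => max (-q x) 0, by fun_prop⟩ with hnq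
    have hg0 : ∀ x, 0 ≤ good c x := fun x => by rcases h1 c x with h | h <;> simp [h]
    have hf : (0 : C(X, ℝ)) ≤ good c * nq :=
      ContinuousMap.le_def.2 fun x => mul_nonneg (hg0 x) (le_max_right _ _)
    have hfg : good c * nq * good c = good c * nq := by
      ext y
      rcases h1 c y with h | h <;> simp [h]
    have h5 := h4 c _ hf hfg
    have h6 : 0 ≤ ∑ i, C.ig (P.Nfn C s c * C.K (C.off ((s.col c).G i : M)) (good c * nq)) :=
      Finset.sum_nonneg fun i _ => C.ig_nonneg (ContinuousMap.le_def.2 fun y => by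
        have := ContinuousMap.le_def.1 (StepAux.K_nonneg (C := C) (C.off ((s.col c).G i : M)) hf) y
        simp only [ContinuousMap.mul_apply, ContinuousMap.zero_apply] at this ⊢
        exact mul_nonneg (hNn c y).1 this)
    have e : q * (good c * nq) = -(good c * (nq * nq)) := by
      ext y
      simp only [hnq, ContinuousMap.mul_apply, ContinuousMap.neg_apply, ContinuousMap.coe_mk]
      rcases le_total 0 (q y) with h | h
      · rw [max_eq_right (neg_nonpos.2 h)]; ring
      · rw [max_eq_left (neg_nonneg.2 h)]; ring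
    have h7 : C.ig (q * (good c * nq)) = C.ig (P.price C s * P.eC C (s.col c) * (good c * nq))
        - P.l / 2 * C.ig (good c * nq) := by
      rw [hq, sub_mul, smul_mul_assoc, one_mul, C.ig_sub, C.ig_smul]
    rw [e, C.ig_neg] at h7
    have h8 : (0 : C(X, ℝ)) ≤ good c * (nq * nq) :=
      ContinuousMap.le_def.2 fun y => mul_nonneg (hg0 y) (mul_self_nonneg _)
    have h9 := C.eq_zero_of_ig_eq_zero h8 (le_antisymm (by linarith) (C.ig_nonneg h8))
    have h10 := congrArg (fun k : C(X, ℝ) => k x) h9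
    simp only [ContinuousMap.mul_apply, hx, one_mul, ContinuousMap.zero_apply, mul_self_eq_zero,
      hnq, ContinuousMap.coe_mk] at h10
    have h11 : -q x ≤ 0 := (le_max_left _ _).trans_eq h10
    simp only [hq, ContinuousMap.sub_apply, ContinuousMap.mul_apply, ContinuousMap.smul_apply,
      ContinuousMap.one_apply, smul_eq_mul, mul_one] at h11
    linarith

variable {s : Config M X r} {δ : ℝ}

namespace Ctx

/-- What is known at an exact point. -/
theorem good_facts (hP : P.Ok C) (hs : StateOk P C s) (hg : P.Good C s) (ctx : Ctx P C s δ)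
    {c : Fin r} {x : X} (hx : ctx.good c x = 1) :
    (s.col c).act x = 1 ∧ s.U x = 1 ∧ P.pmin ≤ P.price C s x ∧
      P.pc C s x = P.price C s x ∧ P.nn (s.col c) x = P.nc (s.col c) x ∧
      0 ≤ P.eC C (s.col c) x ∧ P.eC C (s.col c) x ≤ P.Dc C (s.col c) x := by
  have ha : (s.col c).act x = 1 := le_antisymm
    (by rcases (hs.col c).act_01 x with h | h <;> simp [h]) (hx ▸ ctx.good_le c x)
  have hU : s.U x = 1 := le_antisymm (by rcases hs.U_01 x with h | h <;> simp [h])
    (ha ▸ hs.act_le c x)
  obtain ⟨-, -, hD0, hD, hn0, -, -⟩ := Prm.act_facts hP (hs.col c) ha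
  have hξ : 100000000 * P.κ ≤ xi P.κ ((s.col c).W x) := xi_ge _ _
  have hξ0 := xi_pos P.κ_pos ((s.col c).W x)
  have hp := (price_bounds hs x).1
  have hpos := ctx.pos c x hx
  have hb1 := P.b1_pos
  have hn : 0 ≤ P.nc (s.col c) x := le_trans (by positivity) hn0
  have heD : P.eC C (s.col c) x ≤ P.Dc C (s.col c) x := by
    simp only [Prm.eC, ContinuousMap.sub_apply, ContinuousMap.mul_apply, Fintype.sum_bool,
      ContinuousMap.add_apply]
    linarith [mul_nonneg hn (add_nonneg (mul_self_nonneg (P.γ C (s.col c) true x))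
      (mul_self_nonneg (P.γ C (s.col c) false x)))]
  have he : 0 < P.eC C (s.col c) x := pos_of_mul_pos_right (lt_of_lt_of_le (half_pos P.l_pos) hpos) hp
  have hpm : P.pmin ≤ P.price C s x := by
    have h1 : P.l / 2 ≤ P.price C s x * (5 / xi P.κ ((s.col c).W x)) :=
      hpos.trans (mul_le_mul_of_nonneg_left (heD.trans hD) hp)
    rw [mul_div_assoc', le_div_iff₀ hξ0] at h1
    have h2 := mul_le_mul_of_nonneg_left hξ (half_pos P.l_pos).le
    unfold Prm.pmin
    linarith
  refine ⟨ha, hU, hpm, max_eq_left hpm, max_eq_left ?_, he.le, heD⟩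
  refine le_trans ?_ hn0
  unfold Prm.nmin
  gcongr

/-- At a point of small excess the weight and the multiplier are not small. -/
theorem reg_facts (hP : P.Ok C) (hs : StateOk P C s) (hg : P.Good C s) (ctx : Ctx P C s δ)
    {c : Fin r} {x : X} (hx : ctx.reg c x = 1) :
    ctx.good c x = 1 ∧
      GoodPt P.κ ((s.col c).W x) (P.γ C (s.col c) true x) (P.γ C (s.col c) false x)
        (P.excess C (s.col c) true x) (P.excess C (s.col c) false x) ∧
      1 / 185 ≤ (s.col c).W x ∧ xi P.κ ((s.col c).W x) / 740 ≤ P.nc (s.col c) x ∧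
      P.Tc C (s.col c) x ≤ 23 * P.uc (s.col c) x ∧
      ∀ i, Th C ((s.col c).G i) x ≤ 48 * P.uc (s.col c) x * P.γ C (s.col c) i x := by
  have hreg : ctx.good c x = 1 ∧ ctx.bad c x = 0 := by
    simp only [Ctx.reg, ContinuousMap.mul_apply, ContinuousMap.sub_apply,
      ContinuousMap.one_apply] at hx
    rcases ctx.good_01 c x with h | h <;> rcases ctx.bad_01 c x with h' | h' <;>
      rw [h, h'] at hx <;> first | exact ⟨h, h'⟩ | norm_num at hx
  obtain ⟨ha, -⟩ := good_facts hP hs hg ctx hreg.1
  have hex := ctx.regular c x ha hreg.2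
  have hgp := Prm.goodPt hP (hs.col c) ha hex
  have hT : P.Tc C (s.col c) x
      = TF P.κ ((P.γ C (s.col c) true x + P.γ C (s.col c) false x) / 2) ((s.col c).W x) := by
    simp only [Prm.Tc, Prm.Γc, ContinuousMap.coe_mk, ContinuousMap.smul_apply,
      ContinuousMap.add_apply, smul_eq_mul]
    congr 1
    ring
  have hinv := (hs.col c).inv x ha
  have hW := hgp.w_ge (by rw [← hT]; exact hinv)
  refine ⟨hreg.1, hgp, hW, ?_, ?_, fun i => Prm.Th_le hP (hs.col c) ha hex i⟩
  · obtain ⟨-, h2, -⟩ := sF_bounds P.κ_pos P.κ_le hgp.w_pos.le hgp.w_le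
    have hξ0 := (xi_pos P.κ_pos ((s.col c).W x)).le
    simp only [Prm.nc, Prm.sc, ContinuousMap.smul_apply, ContinuousMap.coe_mk, smul_eq_mul]
    linarith [mul_le_mul_of_nonneg_right hW hξ0]
  · rw [hT]
    refine hgp.T_le.trans ?_
    simp only [Prm.uc, ContinuousMap.coe_mk]
    have := uF_pos P.κ_pos ((s.col c).W x)
    exact mul_le_of_le_one_right (by positivity) (by linarith [hgp.w_le, P.κ_pos])

theorem data_ok (hP : P.Ok C) (hs : StateOk P C s) (hg : P.Good C s) (ctx : Ctx P C s δ)
    (F : Fin r → Fam X) (hFs : ∀ c, (F c).Symm) {B : ℝ} (hB : (1 / P.κ) ^ 8 ≤ B)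
    (hFB : ∀ c x, (F c).K 1 x ≤ B) :
    (ctx.data F B).OkW := by
  have hκ := P.κ_pos
  have hκ1 : P.κ ≤ 1 / 1000000 := by linarith [P.κ_le]
  have hB1 : (1 : ℝ) ≤ B :=
    le_trans (one_le_pow₀ ((one_le_div hκ).2 (by linarith))) hB
  refine ⟨⟨ctx.good_01, hs.U_01, fun c x => (ctx.good_le c x).trans (hs.act_le c x),
    show 0 < B by linarith, fun c => ?_, fun c x => ?_, hFs, hFB⟩, fun c x => P.nn_pos _ x, fun c x => ?_,
    fun c x => ?_, fun c x => ?_⟩
  · refine ContinuousMap.le_def.2 fun x => ?_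
    simp only [Ctx.data, Prm.inn, ContinuousMap.mul_apply, ContinuousMap.sub_apply,
      ContinuousMap.coe_mk, Fintype.sum_bool, ContinuousMap.add_apply, ContinuousMap.zero_apply]
    rcases ctx.good_01 c x with h | h
    · rw [h, zero_mul]
    obtain ⟨-, -, -, -, hnn, he, -⟩ := good_facts hP hs hg ctx h
    have hn := P.nn_pos (s.col c) x
    simp only [Prm.eC, ContinuousMap.sub_apply, ContinuousMap.mul_apply, Fintype.sum_bool,
      ContinuousMap.add_apply, ← hnn] at he
    rw [h, one_mul, sub_nonneg, ← div_eq_mul_inv, le_div_iff₀ hn]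
    linarith
  · simp only [Ctx.data, Prm.inn, ContinuousMap.mul_apply, ContinuousMap.sub_apply,
      ContinuousMap.coe_mk, Fintype.sum_bool, ContinuousMap.add_apply]
    rcases ctx.good_01 c x with h | h
    · rw [h, zero_mul]; linarith
    obtain ⟨ha, -⟩ := good_facts hP hs hg ctx h
    obtain ⟨-, -, hD0, hD, -, -, -⟩ := Prm.act_facts hP (hs.col c) ha
    have hn := P.nn_pos (s.col c) x
    have h1 : P.Dc C (s.col c) x * (P.nn (s.col c) x)⁻¹
        ≤ 5 / (100000000 * P.κ) * (P.nmin)⁻¹ :=
      mul_le_mul (hD.trans (div_le_div_of_nonneg_left (by norm_num) (by positivity) (xi_ge _ _)))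
        (inv_anti₀ P.nmin_pos (le_max_right _ _)) (inv_nonneg.2 hn.le) (by positivity)
    have h2 : 5 / (100000000 * P.κ) * (P.nmin)⁻¹ ≤ B := by
      refine le_trans ?_ hB
      rw [show 5 / (100000000 * P.κ) * (P.nmin)⁻¹ = 160 / 10000000000000000 * (1 / P.κ) ^ 3 by
        unfold Prm.nmin Prm.b1
        field_simp
        ring]
      exact (mul_le_of_le_one_left (by positivity) (by norm_num)).trans
        (pow_le_pow_right₀ ((one_le_div hκ).2 (by linarith)) (by norm_num))
    rw [h, one_mul]
    linarith [mul_self_nonneg (P.γ C (s.col c) true x), mul_self_nonneg (P.γ C (s.col c) false x)]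
  · have hW := (hs.col c).W_mem x
    obtain ⟨-, -, h1⟩ := sF_bounds hκ P.κ_le hW.1 hW.2
    have h2 := xi_le_one P.κ_le hW.1
    have h3 := mul_le_mul_of_nonneg_right (show (s.col c).W x ≤ 1 by
      linarith [hW.2, show P.Wa ≤ 1 by unfold Prm.Wa; linarith]) (xi_pos hκ ((s.col c).W x)).le
    show max (P.nc (s.col c) x) P.nmin ≤ B
    refine max_le ?_ ?_
    · simp only [Prm.nc, Prm.sc, ContinuousMap.smul_apply, ContinuousMap.coe_mk, smul_eq_mul]
      linarith
    · unfold Prm.nmin Prm.b1
      nlinarith [P.κ_le]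
  · exact mul_pos (xi_pos hκ _) (Real.rpow_pos_of_pos (uF_pos hκ _) _)
  · have hW := (hs.col c).W_mem x
    have hu := uF_pos hκ ((s.col c).W x)
    have h1 : uF P.κ ((s.col c).W x) ^ (-(11 / 40) : ℝ) ≤ uF P.κ ((s.col c).W x) ^ (-1 : ℝ) :=
      Real.rpow_le_rpow_of_exponent_ge hu (by linarith [uF_le hκ ((s.col c).W x)]) (by norm_num)
    rw [Real.rpow_neg_one] at h1
    show xi P.κ ((s.col c).W x) * uF P.κ ((s.col c).W x) ^ (-(11 / 40) : ℝ) ≤ B
    refine (mul_le_mul (xi_le_one P.κ_le hW.1) h1 (Real.rpow_nonneg hu.le _) zero_le_one).trans ?_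
    rw [one_mul, inv_eq_one_div]
    refine le_trans (one_div_le_one_div_of_le hκ (le_uF hκ P.κ_le hW.1)) (le_trans ?_ hB)
    exact le_self_pow₀ ((one_le_div hκ).2 (by linarith)) (by norm_num)

/-- Half of the budget is delivered by the points of small excess, up to the others. -/
theorem budget_le (hP : P.Ok C) (hs : StateOk P C s) (hg : P.Good C s) (ctx : Ctx P C s δ)
    (x : X) :
    P.S / 2 * s.U x ≤ (∑ c, 23 * (ctx.reg c x * P.gainC (s.col c) x))
      + ∑ c, ((s.col c).act x - ctx.reg c x) := by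
  have hu : ∀ c, 0 ≤ ctx.reg c x ∧ ctx.reg c x ≤ (s.col c).act x ∧
      (ctx.reg c x = 0 ∨ ctx.reg c x = 1) := fun c => by
    simp only [Ctx.reg, ContinuousMap.mul_apply, ContinuousMap.sub_apply, ContinuousMap.one_apply]
    have := ctx.good_le c x
    rcases ctx.good_01 c x with h | h <;> rcases ctx.bad_01 c x with h' | h' <;>
      rw [h] at this ⊢ <;> rw [h'] <;> norm_num <;> linarith
  rw [← Finset.sum_add_distrib]
  have hgn : ∀ c, 0 ≤ P.gainC (s.col c) x := fun c =>
    Real.rpow_nonneg (uF_pos P.κ_pos _).le _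
  rcases hs.U_01 x with hU | hU
  · rw [hU, mul_zero]
    exact Finset.sum_nonneg fun c _ => add_nonneg
      (by have := (hu c).1; have := hgn c; positivity) (sub_nonneg.2 (hu c).2.1)
  rw [hU, mul_one]
  refine (hg.half x hU).trans ?_
  rw [ContinuousMap.sum_apply]
  refine Finset.sum_le_sum fun c _ => ?_
  simp only [Prm.bc, ContinuousMap.mul_apply, ContinuousMap.sub_apply, ContinuousMap.const_apply]
  rcases (hs.col c).act_01 x with ha | ha
  · have h0 : ctx.reg c x = 0 := le_antisymm (ha ▸ (hu c).2.1) (hu c).1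
    rw [ha, h0]; norm_num
  have hb1 := P.b1_pos
  rcases (hu c).2.2 with h | h
  · rw [ha, h]
    have hΓ : 0 ≤ P.Γc C (s.col c) x := by
      obtain ⟨-, hγ, -⟩ := Prm.act_facts hP (hs.col c) ha
      simp only [Prm.Γc, ContinuousMap.smul_apply, ContinuousMap.add_apply, smul_eq_mul]
      linarith [(hγ true).1, (hγ false).1]
    have hW := (hs.col c).W_mem x
    have := TF_le P.κ_pos P.κ_le hΓ hW.1 hW.2
    have hWa : P.Wa ≤ 1 := by unfold Prm.Wa; linarith [P.κ_pos]
    simp only [Prm.Tc, ContinuousMap.coe_mk]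
    linarith [hW.2]
  · obtain ⟨-, -, -, -, hT, -⟩ := reg_facts hP hs hg ctx h
    have hu0 := uF_pos P.κ_pos ((s.col c).W x)
    have hle : uF P.κ ((s.col c).W x) ≤ uF P.κ ((s.col c).W x) ^ (11 / 20 : ℝ) :=
      Real.self_le_rpow_of_le_one hu0.le (by linarith [uF_le P.κ_pos ((s.col c).W x)])
        (by norm_num)
    simp only [Prm.uc, ContinuousMap.coe_mk] at hT
    rw [ha, h]
    simp only [Prm.gainC, gainF, ContinuousMap.coe_mk]
    linarith

end Ctx

end Vale.Agent.P078.Quad
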