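import Vale.Agent.P078.Quad.MoveDefs
import Vale.Agent.P078.Quad.RowsDefs
import Vale.Agent.P078.Quad.Point

/-! The sets, the scale of the noise and the linearised budget at one state. -/

namespace Vale.Agent.P078.Quad

set_option linter.unusedSectionVars false

open Filter Topology ComplexOrder
open Vale.Agent.P078.Tracial Vale.Agent.P078.AllMasa

/-- The scale of the noise. -/
noncomputable def muF (κ w : ℝ) : ℝ := xi κ w * uF κ w ^ (-(11 / 40) : ℝ)

/-- The gain of one unit of price. -/
noncomputable def gainF (κ w : ℝ) : ℝ := uF κ w ^ (11 / 20 : ℝ)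

/-- The charge of one unit of price. -/
noncomputable def chargeF (κ w : ℝ) : ℝ := uF κ w ^ (7 / 20 : ℝ)

variable {M X : Type} [CStarAlgebra M] [PartialOrder M] [StarOrderedRing M]
variable [TopologicalSpace X] [CompactSpace X] [T2Space X] [TotallyDisconnectedSpace X]

namespace Prm

variable (P : Prm M) (C : SCore M X)

/-- The scale of the noise of one colour. -/
noncomputable def μc (s : Col M X) : C(X, ℝ) :=
  ⟨fun x => muF P.κ (s.W x), by
    unfold muF
    exact ((continuous_xi P.κ).comp (map_continuous s.W)).mul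
      ((continuous_uF_rpow P.κ_pos _).comp (map_continuous s.W))⟩

/-- The gain of one colour. -/
noncomputable def gainC (s : Col M X) : C(X, ℝ) :=
  ⟨fun x => gainF P.κ (s.W x), (continuous_uF_rpow P.κ_pos _).comp (map_continuous s.W)⟩

/-- The charge of one colour. -/
noncomputable def chargeC (s : Col M X) : C(X, ℝ) :=
  ⟨fun x => chargeF P.κ (s.W x), (continuous_uF_rpow P.κ_pos _).comp (map_continuous s.W)⟩

/-- The mass left by the diagonal squares. -/
noncomputable def eC (s : Col M X) : C(X, ℝ) :=
  P.Dc C s - P.nc s * ∑ i, P.γ C s i * P.γ C s i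

/-- The least multiplier. -/
noncomputable def nmin : ℝ := P.b1 * (100000000 * P.κ) / 4

/-- The multiplier, clamped from below. -/
noncomputable def nn (s : Col M X) : C(X, ℝ) :=
  ⟨fun x => max (P.nc s x) P.nmin, by fun_prop⟩

theorem nmin_pos : 0 < P.nmin := by
  unfold nmin; have := P.b1_pos; have := P.κ_pos; positivity

theorem nn_pos (s : Col M X) (x : X) : 0 < P.nn s x := lt_max_of_lt_right P.nmin_pos

/-- The inverse of the multiplier. -/
noncomputable def inn (s : Col M X) : C(X, ℝ) :=
  ⟨fun x => (P.nn s x)⁻¹, (map_continuous (P.nn s)).inv₀ fun x => (P.nn_pos s x).ne'⟩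

/-- The least price at an exact point. -/
noncomputable def pmin : ℝ := P.l * (100000000 * P.κ) / 10

/-- The largest price. -/
noncomputable def pmax (r : ℕ) : ℝ := 2 * √P.l * (P.S + r) + P.pmin

theorem pmin_pos : 0 < P.pmin := by
  unfold pmin; have := P.l_pos; have := P.κ_pos; positivity

/-- The price, clamped from below. -/
noncomputable def pc {r : ℕ} (s : Config M X r) : C(X, ℝ) :=
  ⟨fun x => max (P.price C s x) P.pmin, by fun_prop⟩

theorem pc_pos {r : ℕ} (s : Config M X r) (x : X) : 0 < P.pc C s x := lt_max_of_lt_right P.pmin_pos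

end Prm

/-- The exact and the bad points of a state. -/
structure Ctx {r : ℕ} (P : Prm M) (C : SCore M X) (s : Config M X r) (δ : ℝ) where
  good : Fin r → C(X, ℝ)
  bad : Fin r → C(X, ℝ)
  good_01 : ∀ c x, good c x = 0 ∨ good c x = 1
  bad_01 : ∀ c x, bad c x = 0 ∨ bad c x = 1
  good_le : ∀ c x, good c x ≤ (s.col c).act x
  regular : ∀ c x, (s.col c).act x = 1 → bad c x = 0 → ∀ i,
    P.excess C (s.col c) i x ≤ P.κ / 20
  bad_small : ∀ c, C.ig ((s.col c).act * bad c) ≤ 40 / P.κ * ∑ i, C.tr ((s.col c).Z i)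
  good_small : ∀ c, C.ig ((s.col c).act - good c) ≤ δ
  pos : ∀ c x, good c x = 1 → P.l / 2 ≤ P.price C s x * P.eC C (s.col c) x
  super : ∀ c (f : C(X, ℝ)), 0 ≤ f → f * good c = f →
    (∑ i, C.ig (P.Nfn C s c * C.K (C.off ((s.col c).G i : M)) f)) + P.l / 2 * C.ig f
      ≤ C.ig (P.price C s * P.eC C (s.col c) * f)

namespace Ctx

variable {r : ℕ} {P : Prm M} {C : SCore M X} {s : Config M X r} {δ : ℝ} (ctx : Ctx P C s δ)

/-- The exact points of small excess. -/
noncomputable def reg (c : Fin r) : C(X, ℝ) := ctx.good c * (1 - ctx.bad c)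

/-- The linearised budget on the exact points. -/
noncomputable def data (F : Fin r → Fam X) (B : ℝ) : WData X r where
  act := ctx.good
  U := s.U
  e c := ctx.good c * (P.Dc C (s.col c) * P.inn (s.col c)
    - ∑ i, P.γ C (s.col c) i * P.γ C (s.col c) i)
  F := F
  B := B
  n c := P.nn (s.col c)
  μ c := P.μc (s.col c)

end Ctx

end Vale.Agent.P078.Quad
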